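import Vale.Agent.P092.H575.Geo3
import Vale.Agent.P092.H859.CLB

/-!
P092 (helper575), Team C: the geometric package `CL.Geo` of C-LIM for a discrete group of matrices.
-/

set_option linter.all false

open Matrix Topology TopologicalSpace
open scoped LinearAlgebra.Projectivization

namespace Vale.Agent.P092.H575

open Vale.Agent.P092.H933 Vale.Agent.P092.H820 Vale.Agent.P092.H859.CL

section gp

variable {k : Type} [NormedField k] [IsUltrametricDist k] {n : ℕ}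

/-- the first gap -/
noncomputable def g1 (M : Matrix (Fin n) (Fin n) k) : ℝ := la M 0 - la M 1

/-- the sum of the other gaps -/
noncomputable def g2 (M : Matrix (Fin n) (Fin n) k) : ℝ := la M 1 - la M (n - 1)

theorem g1_eq_gap (hn : 1 < n) (M : Matrix (Fin n) (Fin n) k) : g1 M = gap 0 M := by
  rw [g1, gap, if_pos (by omega)]

theorem g2_eq_gap (M : Matrix (Fin 3) (Fin 3) k) : g2 M = gap 1 M := by
  rw [g2, gap, if_pos (by omega)]

theorem g1_eq_log (hn : 1 < n) (γ : (Matrix (Fin n) (Fin n) k)ˣ) :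
    g1 γ.1 = Real.log (q1 hn γ.1) := by
  have hdet : γ.1.det ≠ 0 := (Matrix.isUnits_det_units γ).ne_zero
  rw [g1, q1, Real.log_div (sv_pos hdet _).ne' (sv_pos hdet _).ne', la, dif_pos (by omega), la,
    dif_pos hn]

theorem g2_eq_log (hn : 1 < n) (γ : (Matrix (Fin n) (Fin n) k)ˣ) :
    g2 γ.1 = Real.log (q2 hn γ.1) := by
  have hdet : γ.1.det ≠ 0 := (Matrix.isUnits_det_units γ).ne_zero
  rw [g2, q2, Real.log_div (sv_pos hdet _).ne' (sv_pos hdet _).ne', la, dif_pos hn, la,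
    dif_pos (by omega)]

theorem q2_pos (hn : 1 < n) (γ : (Matrix (Fin n) (Fin n) k)ˣ) : 0 < q2 hn γ.1 :=
  div_pos (sv_pos (Matrix.isUnits_det_units γ).ne_zero _)
    (sv_pos (Matrix.isUnits_det_units γ).ne_zero _)

theorem one_le_q1 (hn : 1 < n) (γ : (Matrix (Fin n) (Fin n) k)ˣ) : 1 ≤ q1 hn γ.1 := by
  have hdet : γ.1.det ≠ 0 := (Matrix.isUnits_det_units γ).ne_zero
  rw [q1, le_div_iff₀ (sv_pos hdet _), one_mul]
  exact sv_anti _ (Fin.le_def.2 (Nat.zero_le _))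

/-- quasi-invariance of the differences of the logarithms of singular values -/
theorem la_qi (S A T : (Matrix (Fin n) (Fin n) k)ˣ) {i j : ℕ} (hi : i < n) (hj : j < n) :
    |(la (S * A * T).1 i - la (S * A * T).1 j) - (la A.1 i - la A.1 j)| ≤
      (Real.log (nr S.1) + Real.log (nr (S.1)⁻¹)) + (Real.log (nr T.1) + Real.log (nr (T.1)⁻¹)) := by
  have hS : S.1.det ≠ 0 := (Matrix.isUnits_det_units S).ne_zero
  have hA : A.1.det ≠ 0 := (Matrix.isUnits_det_units A).ne_zero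
  have hT : T.1.det ≠ 0 := (Matrix.isUnits_det_units T).ne_zero
  have hSA : (S.1 * A.1).det ≠ 0 := mul_det_ne hS hA
  have e : (S * A * T).1 = S.1 * A.1 * T.1 := rfl
  rw [e]
  have h1 := la_left_le hS hA hi
  have h2 := la_left_ge hS hA hi
  have h3 := la_left_le hS hA hj
  have h4 := la_left_ge hS hA hj
  have h5 := la_right_le hSA hT hi
  have h6 := la_right_ge hSA hT hi
  have h7 := la_right_le hSA hT hj
  have h8 := la_right_ge hSA hT hj
  rw [abs_le]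
  constructor <;> linarith

/-- elements of the wall cone have a cone form with base vector `bv` -/
theorem exists_cf (hn : 1 < n) {R : ℝ} (γ : (Matrix (Fin n) (Fin n) k)ˣ) (h : g2 γ.1 ≤ R) :
    ∃ (c κ : (Matrix (Fin n) (Fin n) k)ˣ) (α z : kˣ),
      CF (⟨0, by omega⟩ : Fin n) (Real.exp |R|) γ c α κ z ∧
      (fun i => c.1 i ⟨0, by omega⟩) = bv (by omega) γ.1 ∧ ‖(α : k)‖ = q1 hn γ.1 := by
  have hdet : γ.1.det ≠ 0 := (Matrix.isUnits_det_units γ).ne_zero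
  have hR : 1 ≤ Real.exp |R| := Real.one_le_exp (abs_nonneg R)
  have h1 : ∀ i : Fin n, sv γ.1 ⟨1, hn⟩ ≤ Real.exp |R| * sv γ.1 i := by
    intro i
    have h2 : q2 hn γ.1 ≤ Real.exp |R| := by
      rw [← Real.exp_log (q2_pos hn γ), ← g2_eq_log hn γ]
      exact Real.exp_le_exp.2 (h.trans (le_abs_self R))
    rw [q2, div_le_iff₀ (sv_pos hdet _)] at h2
    refine h2.trans (mul_le_mul_of_nonneg_left (sv_anti _ (Fin.le_def.2 ?_)) (Real.exp_pos _).le)
    show (i : ℕ) ≤ n - 1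
    omega
  obtain ⟨c, α, κ, z, hc, hcu, hα, hκ, he⟩ := exists_cone hn hR γ h1
  refine ⟨c, κ, α, z, ⟨hc, ?_, hκ, he⟩, funext fun i => hcu i, hα⟩
  rw [hα]
  exact one_le_q1 hn γ

theorem fin_aux (hn : 1 < n) {r : ℝ} (γ : (Matrix (Fin n) (Fin n) k)ˣ) (h1 : g1 γ.1 ≤ r)
    (h2 : g2 γ.1 ≤ r) :
    ∃ (z : kˣ) (g : (Matrix (Fin n) (Fin n) k)ˣ), Bd (Real.exp |r| * Real.exp |r|) g ∧
      γ.1 = (z : k) • g.1 := by
  obtain ⟨c, κ, α, z, hcf, -, hα⟩ := exists_cf hn γ h2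
  refine ⟨z, c * dg (⟨0, by omega⟩ : Fin n) α * κ, ?_, hcf.eq⟩
  have h3 := (hcf.bd.mul (bd_dg (⟨0, by omega⟩ : Fin n) hcf.one)).mul (mem_KK.1 hcf.int)
  refine h3.mono ?_
  rw [mul_one]
  refine mul_le_mul_of_nonneg_left ?_ (Real.exp_pos _).le
  rw [hα, ← Real.exp_log (q1_pos hn γ), ← g1_eq_log hn γ]
  exact Real.exp_le_exp.2 (h1.trans (le_abs_self r))

end gp

section inst

variable {k : Type} [NormedField k] [IsUltrametricDist k] [ProperSpace k] {n : ℕ}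

/-- **The geometric package** for a group of matrices which is discrete modulo scalars. -/
theorem cl_geo (hn : 2 < n) {Γ : Type} [Group Γ] [SMul Γ (ℙ k (Fin n → k))]
    (φ : Γ →* (Matrix (Fin n) (Fin n) k)ˣ) (hsm : ∀ (s : Γ) (y : ℙ k (Fin n → k)), s • y = φ s • y)
    (hf : ∀ B : ℝ, {γ : Γ | ∃ (z : kˣ) (g : (Matrix (Fin n) (Fin n) k)ˣ), Bd B g ∧
      (φ γ).1 = (z : k) • g.1}.Finite) :
    Geo (fun γ => g1 (φ γ).1) (fun γ => g2 (φ γ).1) (fun γ => bp (by omega) (φ γ)) := by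
  have hn1 : 1 < n := by omega
  refine ⟨fun r => ?_, fun s u => ?_, fun s A r => ?_, fun u A r => ?_, fun A A' hd R => ?_⟩
  · exact (hf _).subset fun γ hγ => fin_aux hn1 (φ γ) hγ.1 hγ.2
  · refine ⟨(Real.log (nr (φ s).1) + Real.log (nr ((φ s).1)⁻¹)) +
      (Real.log (nr (φ u).1) + Real.log (nr ((φ u).1)⁻¹)), fun x => ⟨?_, ?_⟩⟩
    · show |g1 (φ (s * x * u)).1 - g1 (φ x).1| ≤ _
      rw [map_mul, map_mul]
      exact la_qi (φ s) (φ x) (φ u) (by omega) hn1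
    · show |g2 (φ (s * x * u)).1 - g2 (φ x).1| ≤ _
      rw [map_mul, map_mul]
      exact la_qi (φ s) (φ x) (φ u) hn1 (by omega)
  · obtain ⟨B, hB⟩ : ∃ B : Set (ℙ k (Fin n → k)), B = (fun y => (φ s)⁻¹ • y) ⁻¹' (A : Set _) :=
      ⟨_, rfl⟩
    have hBc : IsClopen B := by
      rw [hB]
      exact A.isClopen.preimage (continuous_const_smul _)
    obtain ⟨T, hT⟩ := bp_left hn1 hBc (C := nr (φ s).1 * nr ((φ s)⁻¹).1 + 1) (by
      have := mul_nonneg (nr_nonneg (φ s).1) (nr_nonneg ((φ s)⁻¹).1)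
      linarith)
    refine ⟨Real.log (max T 1), fun x hx _ => ?_⟩
    have hx' : T ≤ q1 hn1 (φ x).1 := by
      have h1 : Real.log (max T 1) ≤ Real.log (q1 hn1 (φ x).1) := by rw [← g1_eq_log]; exact hx
      exact (le_max_left T 1).trans
        ((Real.log_le_log_iff (lt_of_lt_of_le one_pos (le_max_right _ _)) (q1_pos hn1 _)).1 h1)
    have h2 := hT (φ x) (φ s) (by linarith) hx'
    show s⁻¹ • bp _ (φ (s * x)) ∈ A ↔ bp _ (φ x) ∈ A
    rw [hsm, map_inv, map_mul]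
    rw [hB] at h2
    simp only [Set.mem_preimage, inv_smul_smul] at h2
    exact h2
  · obtain ⟨T, hT⟩ := bp_right hn1 A.isClopen (C := nr (φ u).1 * nr ((φ u)⁻¹).1 + 1) (by
      have := mul_nonneg (nr_nonneg (φ u).1) (nr_nonneg ((φ u)⁻¹).1)
      linarith)
    refine ⟨Real.log (max T 1), fun x hx _ => ?_⟩
    have hx' : T ≤ q1 hn1 (φ x).1 := by
      have h1 : Real.log (max T 1) ≤ Real.log (q1 hn1 (φ x).1) := by rw [← g1_eq_log]; exact hx
      exact (le_max_left T 1).trans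
        ((Real.log_le_log_iff (lt_of_lt_of_le one_pos (le_max_right _ _)) (q1_pos hn1 _)).1 h1)
    have h2 := hT (φ x) (φ u) (by linarith) hx'
    show bp _ (φ (x * u)) ∈ A ↔ bp _ (φ x) ∈ A
    rw [map_mul]
    exact h2
  · obtain ⟨δ, hδ, hδ1, hsv⟩ := exists_sv A.isClopen
      (show Disjoint (A : Set (ℙ k (Fin n → k))) (A' : Set _) from Clopens.coe_disjoint.2 hd)
    obtain ⟨B, hB⟩ : ∃ B : ℝ, B = Real.exp |R| := ⟨_, rfl⟩
    have hB1 : 1 ≤ B := by rw [hB]; exact Real.one_le_exp (abs_nonneg R)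
    have hB0 : 0 < B := by linarith
    refine ⟨(hf (B ^ 6 / δ)).toFinset, fun r => ⟨Real.log (2 * B ^ 3 / δ) + |r| + 1, ?_, ?_⟩⟩
    · intro x y hx hy hTx hTy hRx hRy
      obtain ⟨c, κ, α, z, hcf, hcv, hα⟩ := exists_cf hn1 (φ x) hRx
      obtain ⟨d, l, β, w, hdf, hdv, hβ⟩ := exists_cf hn1 (φ y) hRy
      rw [← hB] at hcf hdf
      have hs := hsv ⟨_, ne_of_norm_one (norm_bv (by omega) (φ x).1)⟩
        ⟨_, ne_of_norm_one (norm_bv (by omega) (φ y).1)⟩ (norm_bv _ _) (norm_bv _ _) hx hy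
      have hs' : Sv δ (fun i => c.1 i (⟨0, by omega⟩ : Fin n))
          (fun i => d.1 i (⟨0, by omega⟩ : Fin n)) := by
        rw [hcv, hdv]; exact hs
      obtain ⟨h1, h2⟩ := far_aux hn hB1 hδ hcf hdf hs'
      have e : ((φ x)⁻¹ * φ y) = φ (x⁻¹ * y) := by rw [map_mul, map_inv]
      have key : ∀ t Q : ℝ, 0 < Q → Real.log (2 * B ^ 3 / δ) + |r| + 1 ≤ Real.log t → 0 < t →
          t * (δ / (2 * B ^ 3)) ≤ Q → r < Real.log Q := by
        intro t Q hQ ht ht0 htQ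
        have h3 : Real.log (t * (δ / (2 * B ^ 3))) ≤ Real.log Q :=
          Real.log_le_log (by positivity) htQ
        have h4 : Real.log (t * (δ / (2 * B ^ 3))) = Real.log t - Real.log (2 * B ^ 3 / δ) := by
          rw [Real.log_mul ht0.ne' (by positivity), ← inv_div (2 * B ^ 3) δ, Real.log_inv]
          ring
        have := le_abs_self r
        linarith
      have hTx' : Real.log (2 * B ^ 3 / δ) + |r| + 1 ≤ Real.log (q1 hn1 (φ x).1) := by
        rw [← g1_eq_log]; exact hTx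
      have hTy' : Real.log (2 * B ^ 3 / δ) + |r| + 1 ≤ Real.log (q1 hn1 (φ y).1) := by
        rw [← g1_eq_log]; exact hTy
      rw [hβ] at h1
      rw [hα] at h2
      constructor
      · show r < g1 (φ (x⁻¹ * y)).1
        rw [← e, g1_eq_log hn1]
        exact key _ _ (q1_pos hn1 _) hTy' (q1_pos hn1 _) h1
      · show r < g2 (φ (x⁻¹ * y)).1
        rw [← e, g2_eq_log hn1]
        exact key _ _ (q2_pos hn1 _) hTx' (q1_pos hn1 _) h2
    · intro x₁ y₁ x₂ y₂ hx₁ hy₁ hx₂ hy₂ _ _ _ _ r₁ r₂ r₃ r₄ he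
      obtain ⟨c₁, κ₁, α₁, z₁, f₁, v₁, -⟩ := exists_cf hn1 (φ x₁) r₁
      obtain ⟨d₁, l₁, β₁, w₁, k₁, u₁, -⟩ := exists_cf hn1 (φ y₁) r₂
      obtain ⟨c₂, κ₂, α₂, z₂, f₂, v₂, -⟩ := exists_cf hn1 (φ x₂) r₃
      obtain ⟨d₂, l₂, β₂, w₂, k₂, u₂, -⟩ := exists_cf hn1 (φ y₂) r₄
      rw [← hB] at f₁ f₂ k₁ k₂
      have s₁ := hsv ⟨_, ne_of_norm_one (norm_bv (by omega) (φ x₁).1)⟩
        ⟨_, ne_of_norm_one (norm_bv (by omega) (φ y₁).1)⟩ (norm_bv _ _) (norm_bv _ _) hx₁ hy₁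
      have s₂ := hsv ⟨_, ne_of_norm_one (norm_bv (by omega) (φ x₂).1)⟩
        ⟨_, ne_of_norm_one (norm_bv (by omega) (φ y₂).1)⟩ (norm_bv _ _) (norm_bv _ _) hx₂ hy₂
      have he' : φ x₂ * (φ x₁)⁻¹ = φ y₂ * (φ y₁)⁻¹ := by
        rw [← map_inv, ← map_inv, ← map_mul, ← map_mul]
        congr 1
        have h0 : y₁ = x₁ * (x₂⁻¹ * y₂) := by rw [← he]; group
        rw [h0]
        group
      obtain ⟨z, g, hg, hz⟩ := overlap_aux hn hB1 hδ hδ1 f₁ f₂ k₁ k₂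
        (by rw [v₁, u₁]; exact s₁) (by rw [v₂, u₂]; exact s₂) (by rw [v₁]; exact (norm_bv _ _).le)
        (by rw [v₂]; exact (norm_bv _ _).le) (by rw [u₁]; exact (norm_bv _ _).le)
        (by rw [u₂]; exact (norm_bv _ _).le) he'
      rw [Set.Finite.mem_toFinset]
      exact ⟨z, g, hg, by rw [map_mul, map_inv]; exact hz⟩

end inst

end Vale.Agent.P092.H575
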