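import Vale.Agent.P092.H175.TOneB

/-!
P092 (helper575), Team C, [C-UNI]: the chain of congruence subgroups of `GL_N` of a local field of
characteristic 0 (input of Lemma T1 on ergodic actions of `p`-adic analytic groups).
-/

set_option linter.all false

open Matrix Topology

namespace Vale.Agent.P092.H575

/-! ### The chain -/

/-- A chain of subgroups as in a uniform pro-`p` group. -/
structure Chn {G : Type*} [Group G] (p : ℕ) (K : ℕ → Subgroup G) : Prop where
  anti : ∀ m, K (m + 1) ≤ K m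
  fin : ∀ m, ((K (m + 1)).subgroupOf (K m)).FiniteIndex
  comm : ∀ m, ∀ x ∈ K 0, ∀ y ∈ K m, x * y * x⁻¹ * y⁻¹ ∈ K (m + 2)
  pow : ∀ m, ∀ x ∈ K m, x ^ p ∈ K (m + 1)
  root : ∀ m, ∀ y ∈ K (m + 1), ∃ x ∈ K m, (x ^ p)⁻¹ * y ∈ K (m + 2)

namespace Chn

variable {G G' : Type*} [Group G] [Group G'] {p : ℕ} {K : ℕ → Subgroup G}

theorem antitone (h : Chn p K) : Antitone K := antitone_nat_of_succ_le h.anti

theorem le (h : Chn p K) {m l : ℕ} (hml : m ≤ l) : K l ≤ K m := h.antitone hml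

theorem finiteIndex (h : Chn p K) {m l : ℕ} (hml : m ≤ l) :
    ((K l).subgroupOf (K m)).FiniteIndex := by
  induction l, hml using Nat.le_induction with
  | base => rw [Subgroup.subgroupOf_self]; infer_instance
  | succ l hml ih =>
    constructor
    have h1 : (K (l + 1)).relIndex (K l) ≠ 0 := (h.fin l).index_ne_zero
    have h2 : (K l).relIndex (K m) ≠ 0 := ih.index_ne_zero
    exact Subgroup.relIndex_ne_zero_trans h1 h2

/-- every member is normalised by the first one -/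
theorem conj_mem (h : Chn p K) {m : ℕ} {x y : G} (hx : x ∈ K 0) (hy : y ∈ K m) :
    x * y * x⁻¹ ∈ K m := by
  have h1 := h.le (Nat.le_add_right m 2) (h.comm m x hx y hy)
  have h2 := (K m).mul_mem h1 hy
  simpa [mul_assoc] using h2

theorem normal (h : Chn p K) {m l : ℕ} (hml : m ≤ l) : ((K l).subgroupOf (K m)).Normal := by
  constructor
  rintro ⟨y, hy⟩ hy' ⟨x, hx⟩
  rw [Subgroup.mem_subgroupOf] at hy' ⊢
  exact h.conj_mem (h.le (Nat.zero_le m) hx) hy'

/-- images of the chain under a homomorphism -/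
theorem map (h : Chn p K) (f : G →* G') : Chn p fun m => (K m).map f where
  anti m := Subgroup.map_mono (h.anti m)
  fin m := by
    have h2 : (((K (m + 1)).subgroupOf (K m)).map (f.subgroupMap (K m))).index ∣
        ((K (m + 1)).subgroupOf (K m)).index :=
      Subgroup.index_map_dvd _ (f.subgroupMap_surjective (K m))
    have h3 : (((K (m + 1)).subgroupOf (K m)).map (f.subgroupMap (K m))).FiniteIndex := by
      constructor
      intro h0
      rw [h0] at h2
      exact (h.fin m).index_ne_zero (Nat.eq_zero_of_zero_dvd h2)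
    refine Subgroup.finiteIndex_of_le (H := ((K (m + 1)).subgroupOf (K m)).map (f.subgroupMap (K m)))
      ?_
    rintro _ ⟨⟨x, hx⟩, hx', rfl⟩
    rw [SetLike.mem_coe, Subgroup.mem_subgroupOf] at hx'
    rw [Subgroup.mem_subgroupOf]
    exact ⟨x, hx', rfl⟩
  comm m := by
    rintro _ ⟨x, hx, rfl⟩ _ ⟨y, hy, rfl⟩
    exact ⟨_, h.comm m x hx y hy, by simp⟩
  pow m := by
    rintro _ ⟨x, hx, rfl⟩
    exact ⟨_, h.pow m x hx, by simp⟩
  root m := by
    rintro _ ⟨y, hy, rfl⟩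
    obtain ⟨x, hx, hxy⟩ := h.root m y hy
    exact ⟨f x, ⟨x, hx, rfl⟩, ⟨_, hxy, by simp⟩⟩

end Chn

/-! ### Matrices with small entries -/

section matrix

variable {k : Type*} [NormedField k] {n : Type*}

/-- all entries have norm at most `r` -/
def Cl (A : Matrix n n k) (r : ℝ) : Prop := ∀ i j, ‖A i j‖ ≤ r

theorem Cl.mono {A : Matrix n n k} {r s : ℝ} (h : Cl A r) (hrs : r ≤ s) : Cl A s :=
  fun i j => (h i j).trans hrs

theorem Cl.neg {A : Matrix n n k} {r : ℝ} (h : Cl A r) : Cl (-A) r := fun i j => by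
  rw [Matrix.neg_apply, norm_neg]; exact h i j

theorem Cl.zero {r : ℝ} (hr : 0 ≤ r) : Cl (0 : Matrix n n k) r := fun i j => by
  rw [Matrix.zero_apply, norm_zero]; exact hr

theorem Cl.one [DecidableEq n] : Cl (1 : Matrix n n k) 1 := fun i j => by
  rw [Matrix.one_apply]
  split_ifs
  · simp
  · simp

theorem Cl.smul {A : Matrix n n k} {r : ℝ} (h : Cl A r) (c : k) : Cl (c • A) (‖c‖ * r) :=
  fun i j => by
  rw [Matrix.smul_apply, smul_eq_mul, norm_mul]
  exact mul_le_mul_of_nonneg_left (h i j) (norm_nonneg _)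

variable [IsUltrametricDist k]

theorem Cl.add {A B : Matrix n n k} {r : ℝ} (hA : Cl A r) (hB : Cl B r) : Cl (A + B) r :=
  fun i j => (IsUltrametricDist.norm_add_le_max _ _).trans (max_le (hA i j) (hB i j))

theorem Cl.sub {A B : Matrix n n k} {r : ℝ} (hA : Cl A r) (hB : Cl B r) : Cl (A - B) r := by
  rw [sub_eq_add_neg]; exact hA.add hB.neg

theorem Cl.mul [Fintype n] {A B : Matrix n n k} {r s : ℝ} (hA : Cl A r) (hB : Cl B s) :
    Cl (A * B) (r * s) := fun i j => by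
  have hr : 0 ≤ r := (norm_nonneg _).trans (hA i j)
  have hs : 0 ≤ s := (norm_nonneg _).trans (hB i j)
  rw [Matrix.mul_apply]
  refine IsUltrametricDist.norm_sum_le_of_forall_le_of_nonneg (mul_nonneg hr hs) fun l _ => ?_
  rw [norm_mul]
  exact mul_le_mul (hA i l) (hB l j) (norm_nonneg _) hr

variable [Fintype n] [DecidableEq n]

/-- `(1 + A)^m = 1 + m A` up to terms of second order -/
theorem cl_pow {A : Matrix n n k} {r : ℝ} (hr : 0 ≤ r) (hr1 : r ≤ 1) (hA : Cl A r) (m : ℕ) :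
    Cl ((1 + A) ^ m - 1 - (m : k) • A) (r * r) := by
  induction m with
  | zero => simpa using Cl.zero (mul_nonneg hr hr)
  | succ m ih =>
    have h1 : (1 + A) ^ (m + 1) - 1 - ((m + 1 : ℕ) : k) • A
        = ((1 + A) ^ m - 1 - (m : k) • A) * (1 + A) + (m : k) • (A * A) := by
      rw [pow_succ]
      push_cast
      rw [add_smul, one_smul, sub_mul, sub_mul, mul_add ((m : k) • A), mul_one, smul_mul_assoc]
      simp only [one_mul]
      abel
    rw [h1]
    refine Cl.add ?_ ?_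
    · have := ih.mul (Cl.one.add (hA.mono hr1))
      rwa [mul_one] at this
    · refine ((hA.mul hA).smul (m : k)).mono ?_
      have := IsUltrametricDist.norm_natCast_le_one k m
      nlinarith [mul_nonneg hr hr]

/-- the entries of the inverse -/
theorem cl_inv {x : (Matrix n n k)ˣ} {r : ℝ} (hr : 0 ≤ r) (hr1 : r < 1)
    (h : Cl (x.1 - 1) r) : Cl (x⁻¹).1 1 ∧ Cl ((x⁻¹).1 - 1) r := by
  have h0 : (x⁻¹).1 = 1 - (x.1 - 1) * (x⁻¹).1 := by
    rw [sub_mul, Units.mul_inv, one_mul]; abel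
  have h1 : Cl (x⁻¹).1 1 := by
    intro i j
    haveI : Nonempty (n × n) := ⟨(i, j)⟩
    obtain ⟨⟨i₀, j₀⟩, hM⟩ := Finite.exists_max fun q : n × n => ‖(x⁻¹).1 q.1 q.2‖
    set M := ‖(x⁻¹).1 i₀ j₀‖ with hMdef
    have hc : Cl (x⁻¹).1 M := fun a b => hM (a, b)
    refine (hM (i, j)).trans ?_
    show M ≤ 1
    by_contra hlt
    push Not at hlt
    have h2 : M ≤ max 1 (r * M) := by
      rw [hMdef]
      conv_lhs => rw [h0]
      rw [Matrix.sub_apply]
      rw [sub_eq_add_neg]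
      refine (IsUltrametricDist.norm_add_le_max _ _).trans (max_le_max ?_ ?_)
      · exact Cl.one (k := k) i₀ j₀
      · rw [norm_neg]; exact (h.mul hc) i₀ j₀
    rcases le_max_iff.1 h2 with h3 | h3
    · linarith
    · nlinarith
  refine ⟨h1, ?_⟩
  have h2 : (x⁻¹).1 - 1 = -((x.1 - 1) * (x⁻¹).1) := by
    rw [sub_mul, Units.mul_inv, one_mul]; abel
  rw [h2]
  have := (h.mul h1).neg
  rwa [mul_one] at this

theorem cl_isUnit {A : Matrix n n k} {r : ℝ} (hr : 0 ≤ r) (hr1 : r < 1) (h : Cl A r) :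
    ∃ x : (Matrix n n k)ˣ, x.1 = 1 + A := by
  have h1 : (1 + A).det ≠ 0 := by
    intro hd
    obtain ⟨v, hv, hv0⟩ := Matrix.exists_mulVec_eq_zero_iff.2 hd
    obtain ⟨i, hi⟩ := Function.ne_iff.1 hv
    haveI : Nonempty n := ⟨i⟩
    obtain ⟨i₀, hM⟩ := Finite.exists_max fun a : n => ‖v a‖
    have hpos : 0 < ‖v i₀‖ := lt_of_lt_of_le (norm_pos_iff.2 hi) (hM i)
    have h2 : v i₀ = -(A.mulVec v) i₀ := by
      have := congrFun hv0 i₀
      rw [Matrix.add_mulVec, Matrix.one_mulVec] at this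
      exact eq_neg_of_add_eq_zero_left this
    have h3 : ‖v i₀‖ ≤ r * ‖v i₀‖ := by
      conv_lhs => rw [h2]
      rw [norm_neg]
      unfold Matrix.mulVec dotProduct
      refine IsUltrametricDist.norm_sum_le_of_forall_le_of_nonneg
        (mul_nonneg hr (norm_nonneg _)) fun l _ => ?_
      rw [norm_mul]
      exact mul_le_mul (h i₀ l) (hM l) (norm_nonneg _) hr
    nlinarith
  obtain ⟨x, hx⟩ := (Matrix.isUnit_iff_isUnit_det (1 + A)).2 (isUnit_iff_ne_zero.2 h1)
  exact ⟨x, hx⟩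

/-- the congruence subgroup of radius `r` -/
def cg (k : Type*) [NormedField k] [IsUltrametricDist k] (n : Type*) [Fintype n] [DecidableEq n]
    (r : ℝ) (hr : 0 ≤ r) : Subgroup (Matrix n n k)ˣ where
  carrier := {x | (Cl x.1 1 ∧ Cl (x.1 - 1) r) ∧ Cl (x⁻¹).1 1 ∧ Cl ((x⁻¹).1 - 1) r}
  one_mem' := by
    refine ⟨⟨Cl.one, ?_⟩, ?_, ?_⟩
    · rw [Units.val_one, sub_self]; exact Cl.zero hr
    · rw [inv_one, Units.val_one]; exact Cl.one
    · rw [inv_one, Units.val_one, sub_self]; exact Cl.zero hr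
  mul_mem' := by
    rintro x y ⟨⟨h1, h2⟩, h3, h4⟩ ⟨⟨h1', h2'⟩, h3', h4'⟩
    have key : ∀ a b : Matrix n n k, Cl (a - 1) r → Cl b 1 → Cl (b - 1) r →
        Cl (a * b - 1) r := by
      intro a b ha hb hb'
      have : a * b - 1 = (a - 1) * b + (b - 1) := by rw [sub_mul, one_mul]; abel
      rw [this]
      have h := ha.mul hb
      rw [mul_one] at h
      exact h.add hb'
    refine ⟨⟨?_, ?_⟩, ?_, ?_⟩
    · have := h1.mul h1'; rwa [mul_one] at this
    · exact key _ _ h2 h1' h2'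
    · rw [_root_.mul_inv_rev]; have := h3'.mul h3; rwa [mul_one] at this
    · rw [_root_.mul_inv_rev]; exact key _ _ h4' h3 h4
  inv_mem' := by
    rintro x ⟨h1, h2⟩
    exact ⟨h2, by rw [inv_inv]; exact h1⟩

theorem mem_cg {r : ℝ} (hr : 0 ≤ r) (hr1 : r < 1) {x : (Matrix n n k)ˣ} :
    x ∈ cg k n r hr ↔ Cl (x.1 - 1) r := by
  constructor
  · exact fun h => h.1.2
  · intro h
    have h1 := cl_inv hr hr1 h
    refine ⟨⟨?_, h⟩, h1.1, h1.2⟩
    have : x.1 = (x.1 - 1) + 1 := by abel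
    rw [this]
    exact (h.mono hr1.le).add Cl.one

theorem cg_mono {r s : ℝ} (hr : 0 ≤ r) (hs : 0 ≤ s) (hrs : r ≤ s) :
    cg k n r hr ≤ cg k n s hs :=
  fun _ h => ⟨⟨h.1.1, h.1.2.mono hrs⟩, h.2.1, h.2.2.mono hrs⟩

end matrix

/-! ### Topology -/

section top

variable {k : Type*} [NormedField k] [IsUltrametricDist k] {n : Type*} [Fintype n] [DecidableEq n]

theorem isOpen_cl {r : ℝ} (hr : r ≠ 0) : IsOpen {A : Matrix n n k | Cl A r} := by
  have : {A : Matrix n n k | Cl A r} = ⋂ i, ⋂ j, {A : Matrix n n k | A i j ∈ Metric.closedBall (0 : k) r} := by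
    ext A
    simp [Cl]
  rw [this]
  refine isOpen_iInter_of_finite fun i => isOpen_iInter_of_finite fun j => ?_
  exact (IsUltrametricDist.isOpen_closedBall 0 hr).preimage
    (continuous_id.matrix_elem i j)

theorem isClosed_cl {r : ℝ} : IsClosed {A : Matrix n n k | Cl A r} := by
  have : {A : Matrix n n k | Cl A r} = ⋂ i, ⋂ j, {A : Matrix n n k | A i j ∈ Metric.closedBall (0 : k) r} := by
    ext A
    simp [Cl]
  rw [this]
  exact isClosed_iInter fun i => isClosed_iInter fun j =>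
    Metric.isClosed_closedBall.preimage (continuous_id.matrix_elem i j)

theorem isCompact_cl [ProperSpace k] {r : ℝ} : IsCompact {A : Matrix n n k | Cl A r} := by
  have h := isCompact_univ_pi fun _ : n => isCompact_univ_pi fun _ : n =>
    isCompact_closedBall (0 : k) r
  refine h.of_isClosed_subset isClosed_cl ?_
  intro A hA i _ j _
  rw [mem_closedBall_zero_iff]
  exact hA i j

theorem cg_isOpen {r : ℝ} (hr : 0 < r) : IsOpen (cg k n r hr.le : Set (Matrix n n k)ˣ) := by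
  have c1 : Continuous fun x : (Matrix n n k)ˣ => x.1 := Units.continuous_val
  have c2 : Continuous fun x : (Matrix n n k)ˣ => (x⁻¹).1 := Units.continuous_val.comp continuous_inv
  have h : (cg k n r hr.le : Set (Matrix n n k)ˣ) =
      ((fun x : (Matrix n n k)ˣ => x.1) ⁻¹' {A | Cl A 1} ∩
        (fun x : (Matrix n n k)ˣ => x.1 - 1) ⁻¹' {A | Cl A r}) ∩
      ((fun x : (Matrix n n k)ˣ => (x⁻¹).1) ⁻¹' {A | Cl A 1} ∩
        (fun x : (Matrix n n k)ˣ => (x⁻¹).1 - 1) ⁻¹' {A | Cl A r}) := rfl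
  rw [h]
  exact (((isOpen_cl one_ne_zero).preimage c1).inter
    ((isOpen_cl hr.ne').preimage (c1.sub continuous_const))).inter
    (((isOpen_cl one_ne_zero).preimage c2).inter
    ((isOpen_cl hr.ne').preimage (c2.sub continuous_const)))

theorem cg_isCompact [ProperSpace k] {r : ℝ} (hr : 0 < r) :
    IsCompact (cg k n r hr.le : Set (Matrix n n k)ˣ) := by
  have hcl : IsClosed (cg k n r hr.le : Set (Matrix n n k)ˣ) :=
    Subgroup.isClosed_of_isOpen _ (cg_isOpen hr)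
  have h1 : IsCompact ({A : Matrix n n k | Cl A 1} ×ˢ
      (MulOpposite.op '' {A : Matrix n n k | Cl A 1})) :=
    isCompact_cl.prod (isCompact_cl.image MulOpposite.continuous_op)
  have h2 := (Units.isClosedEmbedding_embedProduct (α := Matrix n n k)).isCompact_preimage h1
  refine h2.of_isClosed_subset hcl ?_
  rintro x ⟨⟨hx, -⟩, hx', -⟩
  exact ⟨hx, ⟨_, hx', rfl⟩⟩

/-- the congruence subgroups are a basis of neighbourhoods of the identity -/
theorem cg_basis {U : Set (Matrix n n k)ˣ} (hU : U ∈ 𝓝 (1 : (Matrix n n k)ˣ)) :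
    ∃ r : ℝ, ∃ hr : 0 < r, ∀ s : ℝ, ∀ hs : 0 ≤ s, s ≤ r →
      (cg k n s hs : Set (Matrix n n k)ˣ) ⊆ U := by
  have hbox : ∀ V : Set (Matrix n n k), V ∈ 𝓝 (1 : Matrix n n k) →
      ∃ r : ℝ, 0 < r ∧ ∀ A : Matrix n n k, Cl (A - 1) r → A ∈ V := by
    intro V hV
    have hc : Continuous fun f : n → n → k => (Matrix.of f : Matrix n n k) :=
      continuous_matrix fun i j => (continuous_apply j).comp (continuous_apply i)
    have hV' : (fun f : n → n → k => (Matrix.of f : Matrix n n k)) ⁻¹' V ∈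
        𝓝 (fun i j => (1 : Matrix n n k) i j) := hc.continuousAt.preimage_mem_nhds hV
    obtain ⟨r, hr, hb⟩ := Metric.nhds_basis_closedBall.mem_iff.1 hV'
    refine ⟨r, hr, fun A hA => ?_⟩
    refine hb (show (fun i j => A i j) ∈ Metric.closedBall (fun i j => (1 : Matrix n n k) i j) r
      from ?_)
    rw [Metric.mem_closedBall]
    refine (dist_pi_le_iff hr.le).2 fun i => (dist_pi_le_iff hr.le).2 fun j => ?_
    rw [dist_eq_norm]
    exact hA i j
  rw [Units.isInducing_embedProduct.nhds_eq_comap] at hU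
  obtain ⟨W, hW, hWU⟩ := hU
  rw [nhds_prod_eq] at hW
  obtain ⟨V1, hV1, V2, hV2, hVW⟩ := Filter.mem_prod_iff.1 hW
  obtain ⟨r1, hr1, hb1⟩ := hbox V1 hV1
  have hV2' : MulOpposite.op ⁻¹' V2 ∈ 𝓝 (1 : Matrix n n k) :=
    MulOpposite.continuous_op.continuousAt.preimage_mem_nhds hV2
  obtain ⟨r2, hr2, hb2⟩ := hbox _ hV2'
  refine ⟨min r1 r2, lt_min hr1 hr2, fun s hs hsr => ?_⟩
  rintro x ⟨⟨-, hx⟩, -, hx'⟩
  exact hWU (hVW ⟨hb1 _ (hx.mono (hsr.trans (min_le_left _ _))),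
    hb2 _ (hx'.mono (hsr.trans (min_le_right _ _)))⟩)

end top

/-! ### The chain in `GL_n(k)` -/

section chain

variable (p : ℕ) (k : Type*) [NormedField k] [IsUltrametricDist k] (n : Type*) [Fintype n]
  [DecidableEq n]

/-- `{g : g ≡ 1 mod p^(m+2)}` -/
def Kc (m : ℕ) : Subgroup (Matrix n n k)ˣ :=
  cg k n (‖(p : k)‖ ^ (m + 2)) (pow_nonneg (norm_nonneg _) _)

variable {p k n}

theorem Kc_mono {m l : ℕ} (hml : m ≤ l) : Kc p k n l ≤ Kc p k n m :=
  cg_mono _ _ (pow_le_pow_of_le_one (norm_nonneg _) (IsUltrametricDist.norm_natCast_le_one k p)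
    (by omega))

theorem Kc_isOpen (hp : (p : k) ≠ 0) (m : ℕ) : IsOpen (Kc p k n m : Set (Matrix n n k)ˣ) :=
  cg_isOpen (pow_pos (norm_pos_iff.2 hp) _)

theorem Kc_isCompact [ProperSpace k] (hp : (p : k) ≠ 0) (m : ℕ) :
    IsCompact (Kc p k n m : Set (Matrix n n k)ˣ) :=
  cg_isCompact (pow_pos (norm_pos_iff.2 hp) _)

theorem mem_Kc (hp1 : ‖(p : k)‖ < 1) {m : ℕ} {x : (Matrix n n k)ˣ} :
    x ∈ Kc p k n m ↔ Cl (x.1 - 1) (‖(p : k)‖ ^ (m + 2)) :=
  mem_cg _ (pow_lt_one₀ (norm_nonneg _) hp1 (by omega))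

theorem Kc_basis (hp1 : ‖(p : k)‖ < 1) {U : Set (Matrix n n k)ˣ}
    (hU : U ∈ 𝓝 (1 : (Matrix n n k)ˣ)) : ∃ m, (Kc p k n m : Set (Matrix n n k)ˣ) ⊆ U := by
  obtain ⟨r, hr, h⟩ := cg_basis hU
  obtain ⟨m, hm⟩ := exists_pow_lt_of_lt_one hr hp1
  refine ⟨m, h _ _ (le_trans ?_ hm.le)⟩
  exact pow_le_pow_of_le_one (norm_nonneg _) hp1.le (by omega)

theorem finiteIndex_of_cpt {G : Type*} [Group G] [TopologicalSpace G] [IsTopologicalGroup G]
    {K L : Subgroup G} (hK : IsCompact (K : Set G)) (hL : IsOpen (L : Set G)) :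
    (L.subgroupOf K).FiniteIndex := by
  haveI : CompactSpace K := isCompact_iff_compactSpace.1 hK
  have ho : IsOpen ((L.subgroupOf K : Subgroup K) : Set K) := hL.preimage continuous_subtype_val
  haveI := Subgroup.quotient_finite_of_isOpen (L.subgroupOf K) ho
  exact Subgroup.finiteIndex_of_finite_quotient

theorem chn_gl [ProperSpace k] (hp : (p : k) ≠ 0) (hp1 : ‖(p : k)‖ < 1) :
    Chn p (Kc p k n) where
  anti m := Kc_mono (Nat.le_succ m)
  fin m := finiteIndex_of_cpt (Kc_isCompact hp m) (Kc_isOpen hp (m + 1))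
  comm m := by
    intro x hx y hy
    have hx1 := (mem_Kc hp1).1 hx
    have hy1 := (mem_Kc hp1).1 hy
    rw [mem_Kc hp1]
    have h1 : (x * y * x⁻¹ * y⁻¹).1 - 1 =
        ((x.1 - 1) * (y.1 - 1) - (y.1 - 1) * (x.1 - 1)) * ((x⁻¹).1 * (y⁻¹).1) := by
      have h2 : (x.1 - 1) * (y.1 - 1) - (y.1 - 1) * (x.1 - 1) = x.1 * y.1 - y.1 * x.1 := by
        simp only [sub_mul, mul_sub, mul_one, one_mul]; abel
      rw [h2, sub_mul]
      have h3 : y.1 * x.1 * ((x⁻¹).1 * (y⁻¹).1) = 1 := by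
        rw [mul_assoc, ← mul_assoc x.1, Units.mul_inv, one_mul, Units.mul_inv]
      rw [h3]
      simp only [Units.val_mul, mul_assoc]
    rw [h1]
    have h2 := ((hx1.mul hy1).sub ((hy1.mul hx1).mono (le_of_eq (mul_comm _ _)))).mul
      (hx.2.1.mul hy.2.1)
    refine h2.mono ?_
    rw [mul_one, mul_one, ← pow_add]
    exact pow_le_pow_of_le_one (norm_nonneg _) hp1.le (by omega)
  pow m := by
    intro x hx
    have hx1 := (mem_Kc hp1).1 hx
    rw [mem_Kc hp1]
    have h1 := cl_pow (pow_nonneg (norm_nonneg _) _) (pow_le_one₀ (norm_nonneg _) hp1.le) hx1 p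
    have h2 : (x ^ p).1 - 1 = ((1 + (x.1 - 1)) ^ p - 1 - (p : k) • (x.1 - 1)) +
        (p : k) • (x.1 - 1) := by
      rw [sub_add_cancel, add_sub_cancel, Units.val_pow_eq_pow_val]
    rw [h2]
    refine (h1.mono ?_).add ((hx1.smul (p : k)).mono ?_)
    · rw [← pow_add]
      exact pow_le_pow_of_le_one (norm_nonneg _) hp1.le (by omega)
    · rw [← pow_succ']
  root m := by
    intro y hy
    have hq : 0 < ‖(p : k)‖ := norm_pos_iff.2 hp
    have hy1 := (mem_Kc hp1).1 hy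
    set A : Matrix n n k := (p : k)⁻¹ • (y.1 - 1) with hA
    have hAc : Cl A (‖(p : k)‖ ^ (m + 2)) := by
      refine (hy1.smul (p : k)⁻¹).mono (le_of_eq ?_)
      rw [norm_inv, show m + 1 + 2 = (m + 2) + 1 from by ring, pow_succ' _ (m + 2),
        inv_mul_cancel_left₀ hq.ne']
    have hr0 : 0 ≤ ‖(p : k)‖ ^ (m + 2) := pow_nonneg (norm_nonneg _) _
    have hr1 : ‖(p : k)‖ ^ (m + 2) < 1 := pow_lt_one₀ (norm_nonneg _) hp1 (by omega)
    obtain ⟨x, hx⟩ := cl_isUnit hr0 hr1 hAc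
    have hxK : x ∈ Kc p k n m := by
      rw [mem_Kc hp1, hx, add_sub_cancel_left]; exact hAc
    refine ⟨x, hxK, ?_⟩
    rw [mem_Kc hp1]
    have h1 := cl_pow hr0 hr1.le hAc p
    have h2 : ((x ^ p)⁻¹ * y).1 - 1 = -(((x⁻¹) ^ p).1 * ((1 + A) ^ p - 1 - (p : k) • A)) := by
      have h3 : (p : k) • A = y.1 - 1 := by rw [hA, smul_smul, mul_inv_cancel₀ hp, one_smul]
      have h4 : ((x⁻¹) ^ p).1 * (1 + A) ^ p = 1 := by
        rw [← hx, ← Units.val_pow_eq_pow_val, ← Units.val_mul, inv_pow, inv_mul_cancel,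
          Units.val_one]
      rw [h3, mul_sub, mul_sub, mul_sub, h4, mul_one, Units.val_mul, inv_pow]
      abel
    rw [h2]
    have h3 : Cl ((x⁻¹) ^ p).1 1 := ((Kc p k n m).pow_mem ((Kc p k n m).inv_mem hxK) p).1.1
    refine (h3.mul h1).neg.mono ?_
    rw [one_mul, ← pow_add]
    exact pow_le_pow_of_le_one (norm_nonneg _) hp1.le (by omega)

end chain

/-! ### The residue prime and the final statements -/

theorem exists_prime (k : Type*) [NormedField k] [IsUltrametricDist k] [ProperSpace k]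
    [CharZero k] : ∃ p : ℕ, p.Prime ∧ ‖(p : k)‖ < 1 := by
  by_contra hcon
  push Not at hcon
  have h1 : ∀ p : ℕ, p.Prime → ‖(p : k)‖ = 1 := fun p hp =>
    le_antisymm (IsUltrametricDist.norm_natCast_le_one k p) (hcon p hp)
  have h2 : ∀ m : ℕ, m ≠ 0 → ‖(m : k)‖ = 1 := by
    intro m
    induction m using Nat.recOnMul with
    | zero => intro h; exact absurd rfl h
    | one => intro _; simp
    | prime p hp => intro _; exact h1 p hp
    | mul a b ha hb =>
      intro h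
      rw [Nat.cast_mul, norm_mul, ha (left_ne_zero_of_mul h), hb (right_ne_zero_of_mul h), one_mul]
  obtain ⟨a, -, φ, hφ, hlim⟩ := (isCompact_closedBall (0 : k) 1).tendsto_subseq
    (x := fun m : ℕ => (m : k)) fun m => by
      rw [mem_closedBall_zero_iff]; exact IsUltrametricDist.norm_natCast_le_one k m
  have hc := hlim.cauchySeq
  obtain ⟨N, hN⟩ := Metric.cauchySeq_iff'.1 hc 1 one_pos
  have h3 := hN (N + 1) (Nat.le_succ N)
  have h4 : φ N < φ (N + 1) := hφ (Nat.lt_succ_self N)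
  have h5 : ((φ (N + 1) : k) - (φ N : k)) = ((φ (N + 1) - φ N : ℕ) : k) := by
    rw [Nat.cast_sub h4.le]
  rw [dist_eq_norm] at h3
  change ‖(φ (N + 1) : k) - (φ N : k)‖ < 1 at h3
  rw [h5, h2 _ (by omega)] at h3
  exact lt_irrefl _ h3

open Vale.Agent.P092.H175.T1 in
theorem Chn.chain {G : Type} [Group G] {p : ℕ} {K : ℕ → Subgroup G} (hp : 0 < p) (h : Chn p K) :
    Chain p K where
  pos := hp
  le := h.anti
  comm m x hx y hy := by
    have h1 := h.comm m x⁻¹ ((K 0).inv_mem hx) y⁻¹ ((K m).inv_mem hy)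
    have h2 := (K (m + 2)).inv_mem h1
    simpa [mul_assoc] using h2
  pow := h.pow
  root m y hy := by
    obtain ⟨x, hx, hxy⟩ := h.root m y hy
    exact ⟨x, hx, _, hxy, by group⟩
  fin m := (h.fin m).index_ne_zero

open Vale.Agent.P092.H175.T1 in
/-- **The chain of congruence subgroups of `GL_n(k)`**, `k` a non-archimedean local field of
characteristic 0, in every quotient of `GL_n(k)` by a normal subgroup `Z` (`Z = 1`: `GL_n(k)`;
`Z` = centre: `PGL_n(k)`): open compact subgroups, satisfying the hypotheses of Lemma T1''; every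
neighbourhood of the identity contains one of them. -/
theorem chain_quot (k : Type) [NormedField k] [IsUltrametricDist k] [ProperSpace k] [CharZero k]
    (n : Type) [Fintype n] [DecidableEq n] (Z : Subgroup (Matrix n n k)ˣ) [Z.Normal] :
    ∃ (p : ℕ) (K : ℕ → Subgroup ((Matrix n n k)ˣ ⧸ Z)), p.Prime ∧ ‖(p : k)‖ < 1 ∧
      (∀ m, K m = (Kc p k n m).map (QuotientGroup.mk' Z)) ∧ Chain p K ∧
      (∀ m, IsOpen (K m : Set ((Matrix n n k)ˣ ⧸ Z))) ∧
      (∀ m, IsCompact (K m : Set ((Matrix n n k)ˣ ⧸ Z))) ∧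
      ∀ U ∈ 𝓝 (1 : (Matrix n n k)ˣ ⧸ Z), ∃ m, (K m : Set ((Matrix n n k)ˣ ⧸ Z)) ⊆ U := by
  obtain ⟨p, hp, hp1⟩ := exists_prime k
  have hp0 : (p : k) ≠ 0 := by exact_mod_cast hp.ne_zero
  refine ⟨p, fun m => (Kc p k n m).map (QuotientGroup.mk' Z), hp, hp1, fun _ => rfl,
    ((chn_gl hp0 hp1).map _).chain hp.pos, fun m => ?_, fun m => ?_, fun U hU => ?_⟩
  · rw [Subgroup.coe_map]
    exact QuotientGroup.isOpenMap_coe _ (Kc_isOpen hp0 m)
  · rw [Subgroup.coe_map]
    exact (Kc_isCompact hp0 m).image QuotientGroup.continuous_mk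
  · have h1 : (QuotientGroup.mk : (Matrix n n k)ˣ → (Matrix n n k)ˣ ⧸ Z) ⁻¹' U ∈
        𝓝 (1 : (Matrix n n k)ˣ) := QuotientGroup.continuous_mk.continuousAt.preimage_mem_nhds hU
    obtain ⟨m, hm⟩ := Kc_basis hp1 h1
    refine ⟨m, ?_⟩
    rintro _ ⟨x, hx, rfl⟩
    exact hm hx

end Vale.Agent.P092.H575
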