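import Vale.Agent.P092.H575.Geo6
import Vale.Agent.P092.H859.CLD
import Vale.Agent.P092.SD.Defs

/-!
P092 (helper575), D-ULTRA [U6]: the geometry of the wall limits over a nonarchimedean local field in
the letters of SD/Defs: `CL.GeoF` for the points and for the lines, near-wall elements, attracting
points, sizes.
-/

set_option linter.all false

open Matrix Topology TopologicalSpace
open scoped LinearAlgebra.Projectivization

namespace Vale.Agent.P092.H575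

open Vale.Agent.P092.H933 Vale.Agent.P092.H820
open Vale.Agent.P092.H859.CL (BB FF cn SepP GeoF)
open Vale.Agent.P092.SD (G3 nm NW tau pt)

/-! ### Continuous functions of the attracting point -/

section cf

variable {k : Type*} [NormedField k] [IsUltrametricDist k] [ProperSpace k] {n : ℕ}

theorem bp_close_f {E : Type*} [SeminormedAddCommGroup E] {f : ℙ k (Fin n → k) → E}
    (hf : Continuous f) {e : ℝ} (he : 0 < e) : ∃ ε : ℝ, 0 < ε ∧ ε < 1 ∧
    ∀ M : Matrix (Fin n) (Fin n) k, M ≠ 0 → ∀ v w : {v : Fin n → k // v ≠ 0}, NR ε M v.1 →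
      NR ε M w.1 → ‖f (pj k (Fin n) v) - f (pj k (Fin n) w)‖ ≤ e := by
  have hS : CompactSpace (Metric.sphere (0 : Fin n → k) 1) :=
    isCompact_iff_compactSpace.1 (isCompact_sphere _ _)
  have hne : ∀ v : Metric.sphere (0 : Fin n → k) 1, v.1 ≠ 0 := by
    intro v h
    have := v.2
    rw [h] at this
    simp at this
  obtain ⟨F, hF⟩ : ∃ F : Metric.sphere (0 : Fin n → k) 1 → E,
      F = fun v => f (pj k (Fin n) ⟨v.1, hne v⟩) := ⟨_, rfl⟩
  have hFc : Continuous F := by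
    rw [hF]
    exact hf.comp (pj_continuous.comp (Continuous.subtype_mk continuous_subtype_val _))
  have hu := CompactSpace.uniformContinuous_of_continuous hFc
  obtain ⟨δ, hδ, h⟩ := Metric.uniformContinuous_iff.1 hu e he
  have key : ∀ v w : {v : Fin n → k // v ≠ 0}, ‖v.1‖ = 1 → ‖w.1‖ = 1 → ‖v.1 - w.1‖ < δ →
      ‖f (pj k (Fin n) v) - f (pj k (Fin n) w)‖ ≤ e := by
    intro v w hv hw hvw
    have h1 := h (a := ⟨v.1, by rw [mem_sphere_zero_iff_norm]; exact hv⟩)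
      (b := ⟨w.1, by rw [mem_sphere_zero_iff_norm]; exact hw⟩)
      (by rw [Subtype.dist_eq, dist_eq_norm]; exact hvw)
    rw [hF, dist_eq_norm] at h1
    exact h1.le
  refine ⟨min (δ / 2) (1 / 2), lt_min (by positivity) (by norm_num),
    lt_of_le_of_lt (min_le_right _ _) (by norm_num), fun M hM v w hv hw => ?_⟩
  obtain ⟨c, hc, hcw⟩ := NR.unique (lt_of_le_of_lt (min_le_right _ _) (by norm_num)) hM hv hw
  have hc0 : c ≠ 0 := norm_pos_iff.1 (by rw [hc]; exact one_pos)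
  have hcw0 : c • w.1 ≠ 0 := smul_ne_zero hc0 w.2
  have h1 := key v ⟨c • w.1, hcw0⟩ hv.1 (by rw [norm_smul, hc, one_mul]; exact hw.1)
    (lt_of_le_of_lt (hcw.trans (min_le_left _ _)) (by linarith))
  have h2 : pj k (Fin n) ⟨c • w.1, hcw0⟩ = pj k (Fin n) w := pj_smul_vec hc0 rfl
  rwa [h2] at h1

/-- **Stability** for continuous functions, uniformly in bounded `s`, `u`. -/
theorem bp_stab (hn : 1 < n) {E : Type*} [SeminormedAddCommGroup E] {f : ℙ k (Fin n → k) → E}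
    (hf : Continuous f) {e : ℝ} (he : 0 < e) {C : ℝ} (hC : 0 < C) : ∃ T : ℝ,
    ∀ γ s u : (Matrix (Fin n) (Fin n) k)ˣ, nr s.1 * nr (s⁻¹).1 ≤ C → nr u.1 * nr (u⁻¹).1 ≤ C →
      T ≤ q1 hn γ.1 → ‖f (bp (by omega) (s * γ * u)) - f (s • bp (by omega) γ)‖ ≤ e := by
  obtain ⟨ε, hε, hε1, h⟩ := bp_close_f hf he
  refine ⟨C * C / ε, fun γ s u hs hu hT => ?_⟩
  have hT0 : 0 < C * C / ε := by positivity
  have h1 : (q1 hn γ.1)⁻¹ ≤ ε / (C * C) := by
    rw [← inv_div]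
    exact inv_anti₀ hT0 hT
  have hcs : 0 ≤ nr s.1 * nr (s⁻¹).1 := mul_nonneg (nr_nonneg _) (nr_nonneg _)
  have hcu : 0 ≤ nr u.1 * nr (u⁻¹).1 := mul_nonneg (nr_nonneg _) (nr_nonneg _)
  have hq : 0 ≤ (q1 hn γ.1)⁻¹ := inv_nonneg.2 (q1_pos hn γ).le
  have h2 : (q1 hn γ.1)⁻¹ * (nr s.1 * nr (s⁻¹).1) * (nr u.1 * nr (u⁻¹).1) ≤ ε := by
    calc (q1 hn γ.1)⁻¹ * (nr s.1 * nr (s⁻¹).1) * (nr u.1 * nr (u⁻¹).1)
        ≤ ε / (C * C) * C * C :=
          mul_le_mul (mul_le_mul h1 hs hcs (by positivity)) hu hcu (by positivity)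
      _ = ε := by field_simp
  obtain ⟨c, hc, hN⟩ := (nr_bv' hn γ).left hq s
  have hN' := (hN.right (mul_nonneg hq hcs) u).mono h2
  have hne : c • (s.1 *ᵥ bv (by omega) γ.1) ≠ 0 := ne_of_norm_one hN'.1
  have h3 := h (s * γ * u).1 (unit_ne (by omega) _)
    ⟨_, ne_of_norm_one (norm_bv (by omega) (s * γ * u).1)⟩ ⟨_, hne⟩
    ((nr_bv' hn (s * γ * u)).mono (((q1_right hn (s * γ) u).trans
      (mul_le_mul_of_nonneg_right (q1_left hn γ s) hcu)).trans h2)) hN'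
  have h4 : s • bp (by omega) γ = pj k (Fin n) ⟨_, hne⟩ := by
    have h5 : s.1 *ᵥ bv (by omega) γ.1 ≠ 0 := fun h0 => hne (by rw [h0, smul_zero])
    rw [pj_smul_vec (v := ⟨_, hne⟩) (w := ⟨_, h5⟩) hc rfl]
    rfl
  rw [h4]
  exact h3

end cf

/-! ### `GeoF` in all ranks -/

section gen

variable {k : Type} [NontriviallyNormedField k] [IsUltrametricDist k] [ProperSpace k] {n : ℕ}

/-- disjoint closed sets are separated by a clopen set -/
theorem exists_clopen_sep {A A' : Set (ℙ k (Fin n → k))} (hA : IsClosed A) (hA' : IsClosed A')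
    (hd : Disjoint A A') : ∃ B : Clopens (ℙ k (Fin n → k)), A ⊆ B ∧
      Disjoint (B : Set (ℙ k (Fin n → k))) A' := by
  have h := hA.isCompact
  obtain ⟨B, hB, hAB, hBA⟩ : ∃ B : Set (ℙ k (Fin n → k)), IsClopen B ∧ A ⊆ B ∧ B ⊆ A'ᶜ := by
    have hU : IsOpen (A'ᶜ) := hA'.isOpen_compl
    have h1 : ∀ x ∈ A, ∃ V : Set (ℙ k (Fin n → k)), IsClopen V ∧ x ∈ V ∧ V ⊆ A'ᶜ := fun x hx =>
      compact_exists_isClopen_in_isOpen hU (Set.disjoint_left.1 hd hx)
    choose! V hV1 hV2 hV3 using h1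
    obtain ⟨t, ht, hAt⟩ := h.elim_nhds_subcover V fun x hx => (hV1 x hx).isOpen.mem_nhds (hV2 x hx)
    refine ⟨⋃ x ∈ t, V x, t.finite_toSet.isClopen_biUnion fun x hx => hV1 x (ht x hx), hAt, ?_⟩
    exact Set.iUnion₂_subset fun x hx => hV3 x (ht x hx)
  exact ⟨⟨B, hB⟩, hAB, Set.disjoint_left.2 fun x hx hx' => hBA hx hx'⟩

/-- **[GEOF]**, all ranks -/
theorem geoF_gl (hn : 2 < n) {Γ : Type} [Group Γ] [MulAction Γ (ℙ k (Fin n → k))]
    (φ : Γ →* (Matrix (Fin n) (Fin n) k)ˣ) (hsm : ∀ (s : Γ) (y : ℙ k (Fin n → k)), s • y = φ s • y)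
    (hf : ∀ B : ℝ, {γ : Γ | ∃ (z : kˣ) (g : (Matrix (Fin n) (Fin n) k)ˣ), Bd B g ∧
      (φ γ).1 = (z : k) • g.1}.Finite) :
    GeoF (fun γ => g1 (φ γ).1) (fun γ => g2 (φ γ).1) (fun γ => bp (by omega) (φ γ)) := by
  have hn1 : 1 < n := by omega
  have hG := cl_geo hn φ hsm hf
  refine ⟨fun s => ?_, hG.fin, hG.gap, fun s u f ε hε r => ?_, fun A A' hA hA' hd => ?_⟩
  · have h1 : (fun y : ℙ k (Fin n → k) => s • y) = fun y => φ s • y := funext fun y => hsm s y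
    rw [h1]
    exact continuous_const_smul (φ s)
  · obtain ⟨C, hC⟩ : ∃ C : ℝ, C = max 1 (max (nr (φ s).1 * nr ((φ s)⁻¹).1)
      (nr (φ u).1 * nr ((φ u)⁻¹).1)) := ⟨_, rfl⟩
    obtain ⟨T, hT⟩ := bp_stab (k := k) (n := n) hn1 f.continuous hε (C := C)
      (by rw [hC]; exact lt_of_lt_of_le one_pos (le_max_left _ _))
    refine ⟨Real.log (max T 1), fun x hx _ => ?_⟩
    have h1 : max T 1 ≤ q1 hn1 (φ x).1 := by
      have h0 : 0 < max T 1 := lt_of_lt_of_le one_pos (le_max_right T 1)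
      have h3 : Real.log (max T 1) ≤ Real.log (q1 hn1 (φ x).1) := by
        rw [← g1_eq_log hn1]
        exact hx
      exact (Real.log_le_log_iff h0 (lt_of_lt_of_le one_pos (one_le_q1 hn1 _))).1 h3
    have h2 := hT (φ x) (φ s) (φ u)
      (by rw [hC]; exact (le_max_left _ _).trans (le_max_right _ _))
      (by rw [hC]; exact (le_max_right _ _).trans (le_max_right _ _))
      ((le_max_left _ _).trans h1)
    rw [Real.norm_eq_abs] at h2
    have e2 : bp (by omega) (φ (s * x * u)) = bp (by omega) (φ s * φ x * φ u) := by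
      rw [← map_mul, ← map_mul]
    show |f (bp (by omega) (φ (s * x * u))) - f (s • bp (by omega) (φ x))| ≤ ε
    rw [e2, hsm]
    exact h2
  · obtain ⟨B, hAB, hBA⟩ := exists_clopen_sep hA hA' hd
    have h1 := hG.sep B Bᶜ disjoint_compl_right
    intro R
    obtain ⟨S, hS⟩ := h1 R
    refine ⟨S, fun r => ?_⟩
    obtain ⟨T, hT1, hT2⟩ := hS r
    have hA'B : ∀ {y : ℙ k (Fin n → k)}, y ∈ A' →
        y ∈ ((Bᶜ : Clopens (ℙ k (Fin n → k))) : Set (ℙ k (Fin n → k))) := fun hy hB =>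
      Set.disjoint_left.1 hBA hB hy
    exact ⟨T, fun x y hx hy => hT1 x y (hAB hx) (hA'B hy),
      fun x₁ y₁ x₂ y₂ a b c d => hT2 x₁ y₁ x₂ y₂ (hAB a) (hA'B b) (hAB c) (hA'B d)⟩

/-- **[GEOF]** for discrete subgroups of `SL_n(k)`, all ranks -/
theorem geoF_sl (hn : 2 < n) {Γ : Type} [Group Γ] [MulAction Γ (ℙ k (Fin n → k))]
    (q : Γ →* SpecialLinearGroup (Fin n) k) (hq : Function.Injective q)
    (hd : DiscreteTopology q.range) (hsm : ∀ (s : Γ) (y : ℙ k (Fin n → k)), s • y = q s • y) :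
    GeoF (fun γ => g1 (q γ).1) (fun γ => g2 (q γ).1) (fun γ => bp (by omega) (tg q γ)) :=
  geoF_gl hn (tg q) (fun s y => (hsm s y).trans (tg_smul q s y).symm)
    (sl_fin (by omega) q hq hd)

/-- **[GEOF]** in the letters of RC, all ranks -/
theorem geoF_rc {m : ℕ} (hm : 2 ≤ m) {Γ : Type} [Group Γ]
    {q : Γ →* RC.GG k m} (hq : RC.Emb q) :
    @GeoF Γ (RC.YY k m) _ _ (MulAction.compHom (RC.YY k m) q) (fun γ => g1 (q γ).1)
      (fun γ => g2 (q γ).1) (fun γ => bp (by omega) (tg q γ)) := by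
  let _ : MulAction Γ (RC.YY k m) := MulAction.compHom (RC.YY k m) q
  exact geoF_sl (by omega) q hq.inj hq.lat.disc fun s y => rfl

theorem sl_fin_ct {Γ : Type} [Group Γ] (q : Γ →* RC.GG k 2)
    (hq : Function.Injective q) (hd : DiscreteTopology q.range) (B : ℝ) :
    {γ : Γ | ∃ (z : kˣ) (g : (Matrix (Fin 3) (Fin 3) k)ˣ), Bd B g ∧
      (tg (RC.ct.comp q) γ).1 = (z : k) • g.1}.Finite := by
  refine (sl_fin (by norm_num) q hq hd B).subset ?_
  rintro γ ⟨z, g, hg, h⟩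
  obtain ⟨g', hg', he⟩ := bd_ct hg
  refine ⟨z⁻¹, g', hg', ?_⟩
  have h1 : (Matrix.SpecialLinearGroup.toGL (RC.ct (q γ)) : GL (Fin 3) k).1 =
      (z : k) • g.1 := h
  have h2 := inv_of_smul h1
  have h3 : (Matrix.SpecialLinearGroup.toGL (RC.ct (q γ)) : GL (Fin 3) k)⁻¹.1 = (q γ).1ᵀ := by
    rw [← sl_inv_val, ← map_inv]
    show ((q γ)⁻¹⁻¹).1ᵀ = _
    rw [inv_inv]
  rw [h3] at h2
  rw [he]
  have h4 := congrArg Matrix.transpose h2
  rw [Matrix.transpose_transpose, Matrix.transpose_smul] at h4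
  exact h4

/-- **[GEOF]** for the lines, `n = 3`, in the letters of RC -/
theorem geoF_rc_ct {Γ : Type} [Group Γ] {q : Γ →* RC.GG k 2} (hq : RC.Emb q) :
    @GeoF Γ (RC.YY k 2) _ _ (MulAction.compHom (RC.YY k 2) (RC.ct.comp q)) (fun γ => g2 (q γ).1)
      (fun γ => g1 (q γ).1) (fun γ => bp (by omega) (tg (RC.ct.comp q) γ)) := by
  let _ : MulAction Γ (RC.YY k 2) := MulAction.compHom (RC.YY k 2) (RC.ct.comp q)
  have h := geoF_gl (k := k) (n := 3) (by norm_num) (tg (RC.ct.comp q))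
    (fun s y => (tg_smul (RC.ct.comp q) s y).symm) (sl_fin_ct q hq.inj hq.lat.disc)
  have e1 : (fun γ => g1 (tg (RC.ct.comp q) γ).1) = fun γ => g2 (q γ).1 :=
    funext fun γ => g1_ct (q γ)
  have e2 : (fun γ => g2 (tg (RC.ct.comp q) γ).1) = fun γ => g1 (q γ).1 :=
    funext fun γ => g2_ct (q γ)
  rw [e1, e2] at h
  exact h

end gen

/-! ### Sizes -/

section size

variable {k : Type} [NontriviallyNormedField k] [IsUltrametricDist k]

theorem nm_eq_nr (h : G3 k) : nm h = nr h.1 := by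
  refine le_antisymm ?_ ?_
  · refine (pi_norm_le_iff_of_nonneg (nr_nonneg _)).2 fun i =>
      (pi_norm_le_iff_of_nonneg (nr_nonneg _)).2 fun j => entry_le_nr h.1 i j
  · refine nr_le (norm_nonneg _) fun i j => ?_
    exact (norm_le_pi_norm (fun j => h.1 i j) j).trans
      (norm_le_pi_norm (fun i j => h.1 i j : Fin 3 → Fin 3 → k) i)

theorem det_ne3 (h : G3 k) : h.1.det ≠ 0 := by rw [h.2]; exact one_ne_zero

theorem nm_eq_sv (h : G3 k) : nm h = sv h.1 0 := by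
  rw [nm_eq_nr]
  exact le_antisymm (nr_le_sv h.1 (by norm_num)) (sv_zero_le (by norm_num) h.1)

theorem sv_sl_inv (h : G3 k) (i : Fin 3) : sv (h⁻¹).1 i = (sv h.1 i.rev)⁻¹ := by
  rw [sl_inv_val]
  exact sv_inv _ i

theorem nm_inv (h : G3 k) : nm h⁻¹ = (sv h.1 2)⁻¹ := by
  rw [nm_eq_sv, sv_sl_inv]
  rfl

theorem sv_prod (h : G3 k) : sv h.1 0 * sv h.1 1 * sv h.1 2 = 1 := by
  have h1 := norm_det_eq h.1
  rw [h.2, norm_one, Fin.prod_univ_three] at h1
  exact h1.symm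

theorem sv_pos3 (h : G3 k) (i : Fin 3) : 0 < sv h.1 i := sv_pos (det_ne3 h) i

theorem nm_pos (h : G3 k) : 0 < nm h := by rw [nm_eq_sv]; exact sv_pos3 h 0

theorem exp_gap0 (h : G3 k) : Real.exp (gap 0 h.1) = sv h.1 0 / sv h.1 1 := by
  rw [gap, if_pos (by norm_num), Real.exp_sub]
  congr 1
  · exact exp_la (det_ne3 h) 0
  · exact exp_la (det_ne3 h) 1

theorem exp_gap1 (h : G3 k) : Real.exp (gap 1 h.1) = sv h.1 1 / sv h.1 2 := by
  rw [gap, if_pos (by norm_num), Real.exp_sub]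
  congr 1
  · exact exp_la (det_ne3 h) 1
  · exact exp_la (det_ne3 h) 2

/-- near-wall elements = bounded second gap, exactly -/
theorem nw_iff (R : ℝ) (h : G3 k) : NW R h ↔ Real.exp (gap 1 h.1) ≤ R := by
  have p0 := sv_pos3 h 0
  have p1 := sv_pos3 h 1
  have p2 := sv_pos3 h 2
  have hp := sv_prod h
  unfold NW
  rw [nm_inv, nm_eq_sv, exp_gap1]
  have e : (sv h.1 2)⁻¹ ^ 2 = sv h.1 1 / sv h.1 2 * sv h.1 0 := by
    field_simp
    nlinarith [hp]
  rw [e]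
  exact mul_le_mul_iff_left₀ p0

theorem nw_of_gap {r : ℝ} {h : G3 k} (hg : gap 1 h.1 ≤ r) : NW (Real.exp r) h :=
  (nw_iff _ h).2 (Real.exp_le_exp.2 hg)

theorem gap_of_nw {R : ℝ} {h : G3 k} (hn : NW R h) : gap 1 h.1 ≤ Real.log R := by
  have h1 := (nw_iff R h).1 hn
  have h2 := Real.log_le_log (Real.exp_pos _) h1
  rwa [Real.log_exp] at h2

theorem gap0_tau (h : G3 k) : gap 0 (tau k h).1 = gap 1 h.1 := by
  rw [← g1_eq_gap (by norm_num), ← g2_eq_gap]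
  exact g1_ct h

theorem gap1_tau (h : G3 k) : gap 1 (tau k h).1 = gap 0 h.1 := by
  rw [← g1_eq_gap (by norm_num), ← g2_eq_gap]
  exact g2_ct h

theorem nm_tau (h : G3 k) : nm (tau k h) = nm h⁻¹ := by
  rw [nm_eq_sv, nm_eq_sv]
  show sv ((h⁻¹).1ᵀ) 0 = _
  rw [sv_tr]

/-- Sizes and gaps, exactly. -/
theorem size (h : G3 k) : 3 * Real.log (nm h) = 2 * gap 0 h.1 + gap 1 h.1 := by
  have p0 := sv_pos3 h 0
  have p1 := sv_pos3 h 1
  have p2 := sv_pos3 h 2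
  have e0 : gap 0 h.1 = Real.log (sv h.1 0) - Real.log (sv h.1 1) := by
    rw [← Real.log_div p0.ne' p1.ne', ← exp_gap0, Real.log_exp]
  have e1 : gap 1 h.1 = Real.log (sv h.1 1) - Real.log (sv h.1 2) := by
    rw [← Real.log_div p1.ne' p2.ne', ← exp_gap1, Real.log_exp]
  have e2 : Real.log (sv h.1 0) + Real.log (sv h.1 1) + Real.log (sv h.1 2) = 0 := by
    rw [← Real.log_mul p0.ne' p1.ne', ← Real.log_mul (mul_pos p0 p1).ne' p2.ne', sv_prod,
      Real.log_one]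
  rw [e0, e1, nm_eq_sv]
  linarith

theorem size_inv (h : G3 k) : 3 * Real.log (nm h⁻¹) = gap 0 h.1 + 2 * gap 1 h.1 := by
  rw [← nm_tau, size, gap0_tau, gap1_tau]
  ring

theorem size_nw {R : ℝ} {h : G3 k} (hR : NW R h) :
    |3 * Real.log (nm h) - 2 * gap 0 h.1| ≤ Real.log R := by
  have h1 := size h
  have h2 := gap_of_nw hR
  have h3 := gap_nonneg (det_ne3 h) 1
  rw [h1, show 2 * gap 0 h.1 + gap 1 h.1 - 2 * gap 0 h.1 = gap 1 h.1 by ring, abs_of_nonneg h3]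
  exact h2

theorem log_nm_le (h : G3 k) : Real.log (nm h) ≤ gap 0 h.1 + gap 1 h.1 := by
  have h1 := size h
  have h2 := gap_nonneg (det_ne3 h) 0
  have h3 := gap_nonneg (det_ne3 h) 1
  linarith

/-! ### The attracting point -/

/-- the attracting point -/
noncomputable def bpU (h : G3 k) : SD.PP k :=
  bp (n := 3) (by norm_num) (Matrix.SpecialLinearGroup.toGL h)

theorem att_of_gap {T : ℝ} (hT : 0 < T) {A : Set (SD.PP k)} {h : G3 k} (hA : bpU h ∈ A)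
    (hg : Real.log T ≤ gap 0 h.1) : SD.Att T A h := by
  obtain ⟨hw, φ, hφ⟩ := nr_bv' (by norm_num) (Matrix.SpecialLinearGroup.toGL h : GL (Fin 3) k)
  refine ⟨_, φ, ne_of_norm_one hw, hA, fun i j => (hφ i j).trans ?_⟩
  rw [nm_eq_nr, div_eq_mul_inv, mul_comm]
  refine mul_le_mul_of_nonneg_left (inv_anti₀ hT ?_) (nr_nonneg _)
  have h1 : q1 (by norm_num) (Matrix.SpecialLinearGroup.toGL h : GL (Fin 3) k).1 =
      Real.exp (gap 0 h.1) := (exp_gap0 h).symm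
  rw [h1, ← Real.exp_log hT]
  exact Real.exp_le_exp.2 hg

end size

/-! ### Groups -/

section grp

variable {k : Type} [NontriviallyNormedField k] [IsUltrametricDist k] {Γ : Type} [Group Γ]
  (q : Γ →* G3 k)

/-- **[DOMG]** -/
theorem cone_sub_pt (r : ℝ) : ∃ R, ∀ T > 0, ∃ T' : ℝ, ∀ A : Set (SD.PP k),
      cn (fun γ => gap 0 (q γ).1) (fun γ => gap 1 (q γ).1) (fun γ => bpU (q γ)) A ⊆
        {γ | NW R (q γ) ∧ SD.Att T A (q γ)} ∪
          (FF (fun γ => gap 0 (q γ).1) (fun γ => gap 1 (q γ).1) T' ∪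
            BB (fun γ => gap 0 (q γ).1) (fun γ => gap 1 (q γ).1) r) := by
  refine ⟨Real.exp r, fun T hT => ⟨max (Real.log T) r, fun A γ hγ => ?_⟩⟩
  obtain ⟨h1, h2⟩ := hγ
  by_cases h3 : gap 1 (q γ).1 ≤ r
  · by_cases h4 : Real.log T ≤ gap 0 (q γ).1
    · left
      exact ⟨nw_of_gap h3, att_of_gap hT h2 h4⟩
    · right; left
      push Not at h4
      exact ⟨h4.le.trans (le_max_left _ _), h3.trans (le_max_right _ _)⟩
  · right; right
    push Not at h3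
    exact ⟨lt_of_lt_of_le h3 h1, h3⟩

/-- Outside the near-wall elements: off the cone or regular. -/
theorem not_nw_sub (r : ℝ) : {γ | ¬ NW (Real.exp r) (q γ)} ⊆
    {γ | gap 0 (q γ).1 < gap 1 (q γ).1} ∪
      BB (fun γ => gap 0 (q γ).1) (fun γ => gap 1 (q γ).1) r := by
  intro γ hγ
  have h3 : ¬ gap 1 (q γ).1 ≤ r := fun h => hγ (nw_of_gap h)
  push Not at h3
  by_cases h4 : gap 0 (q γ).1 < gap 1 (q γ).1
  · left; exact h4
  · right
    push Not at h4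
    exact ⟨lt_of_lt_of_le h3 h4, h3⟩

theorem not_nw_sub' (r : ℝ) : {γ | ¬ NW (Real.exp r) (q γ)} ⊆ {γ | r < gap 1 (q γ).1} := by
  intro γ hγ
  by_contra h3
  exact hγ (nw_of_gap (not_lt.1 h3))

/-- **[DOMG]** for the lines. -/
theorem cone_sub_ln (r : ℝ) : ∃ R, ∀ T > 0, ∃ T' : ℝ, ∀ A : Set (SD.PP k),
      cn (fun γ => gap 1 (q γ).1) (fun γ => gap 0 (q γ).1) (fun γ => bpU (tau k (q γ))) A ⊆
        {γ | NW R (((tau k).comp q) γ) ∧ SD.Att T A (((tau k).comp q) γ)} ∪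
          (FF (fun γ => gap 1 (q γ).1) (fun γ => gap 0 (q γ).1) T' ∪
            BB (fun γ => gap 1 (q γ).1) (fun γ => gap 0 (q γ).1) r) := by
  have h := cone_sub_pt ((tau k).comp q) r
  have e0 : (fun γ => gap 0 (((tau k).comp q) γ).1) = fun γ => gap 1 (q γ).1 :=
    funext fun γ => gap0_tau (q γ)
  have e1 : (fun γ => gap 1 (((tau k).comp q) γ).1) = fun γ => gap 0 (q γ).1 :=
    funext fun γ => gap1_tau (q γ)
  rw [e0, e1] at h
  exact h

theorem disc_hf [ProperSpace k] (hq : ∀ C : ℝ, {γ : Γ | nm (q γ) ≤ C}.Finite) (B : ℝ) :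
    {γ : Γ | ∃ (z : kˣ) (g : (Matrix (Fin 3) (Fin 3) k)ˣ), Bd B g ∧
      (tg q γ).1 = (z : k) • g.1}.Finite := by
  refine (hq (B * B)).subset ?_
  rintro γ ⟨z, g, hg, h⟩
  have hB : 0 ≤ B := (norm_nonneg _).trans (hg.1 0 0)
  show nm (q γ) ≤ B * B
  rw [nm_eq_nr]
  exact nr_le (mul_nonneg hB hB) fun i j => sl_entry (by norm_num) hg h i j

theorem nm_inv_le (h : G3 k) : nm h⁻¹ ≤ nm h ^ 2 := by
  have p0 := sv_pos3 h 0
  have p1 := sv_pos3 h 1
  have p2 := sv_pos3 h 2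
  have hp := sv_prod h
  rw [nm_inv, nm_eq_sv]
  have h1 : sv h.1 1 ≤ sv h.1 0 := sv_anti _ (by decide)
  rw [inv_le_iff_one_le_mul₀ p2, ← hp]
  nlinarith [mul_pos p0 p2]

theorem disc_tau (hq : ∀ C : ℝ, {γ : Γ | nm (q γ) ≤ C}.Finite) (C : ℝ) :
    {γ : Γ | nm (((tau k).comp q) γ) ≤ C}.Finite := by
  refine (hq (C ^ 2)).subset ?_
  intro γ hγ
  have h1 : nm (tau k (q γ)) ≤ C := hγ
  have h2 := nm_inv_le (tau k (q γ))
  have h3 : nm (tau k (q γ))⁻¹ = nm (q γ) := by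
    rw [← map_inv, nm_tau, inv_inv]
  rw [h3] at h2
  exact h2.trans (pow_le_pow_left₀ (nm_pos _).le h1 2)

theorem tau_inj : Function.Injective (tau k) := ct_inj (m := 2)

theorem inj_tau (hq : Function.Injective q) : Function.Injective ((tau k).comp q) :=
  tau_inj.comp hq

theorem tau_tau (h : G3 k) : tau k (tau k h) = h := by
  apply Subtype.ext
  show ((tau k h)⁻¹).1ᵀ = h.1
  rw [← map_inv]
  show (((h⁻¹)⁻¹).1ᵀ)ᵀ = h.1
  rw [inv_inv, Matrix.transpose_transpose]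

variable [ProperSpace k]

/-- **[GEOF]** for the points -/
theorem geoF_pt (hq : ∀ C : ℝ, {γ : Γ | nm (q γ) ≤ C}.Finite) :
    @GeoF Γ (SD.PP k) _ _ (MulAction.compHom (SD.PP k) q) (fun γ => gap 0 (q γ).1)
      (fun γ => gap 1 (q γ).1) (fun γ => bpU (q γ)) := by
  let _ : MulAction Γ (SD.PP k) := MulAction.compHom (SD.PP k) q
  have hG := geoF_gl (k := k) (n := 3) (by norm_num) (tg q)
    (fun s y => (tg_smul q s y).symm) (disc_hf q hq)
  have e0 : (fun γ => g1 (tg q γ).1) = fun γ => gap 0 (q γ).1 :=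
    funext fun γ => g1_eq_gap (by norm_num) (q γ).1
  have e1 : (fun γ => g2 (tg q γ).1) = fun γ => gap 1 (q γ).1 :=
    funext fun γ => g2_eq_gap (q γ).1
  rw [e0, e1] at hG
  exact hG

/-- **[GEOF]** for the lines -/
theorem geoF_ln (hq : ∀ C : ℝ, {γ : Γ | nm (q γ) ≤ C}.Finite) :
    @GeoF Γ (SD.PP k) _ _ (MulAction.compHom (SD.PP k) ((tau k).comp q)) (fun γ => gap 1 (q γ).1)
      (fun γ => gap 0 (q γ).1) (fun γ => bpU (tau k (q γ))) := by
  have h := geoF_pt ((tau k).comp q) (disc_tau q hq)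
  have e0 : (fun γ => gap 0 (((tau k).comp q) γ).1) = fun γ => gap 1 (q γ).1 :=
    funext fun γ => gap0_tau (q γ)
  have e1 : (fun γ => gap 1 (((tau k).comp q) γ).1) = fun γ => gap 0 (q γ).1 :=
    funext fun γ => gap1_tau (q γ)
  rw [e0, e1] at h
  exact h

end grp

end Vale.Agent.P092.H575
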