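import Vale.Agent.P092.H575.Geo4
import Vale.Agent.P092.RC.Cc

/-!
P092 (helper575), Team C: `CL.Geo` for a discrete group in `SL_(m+1)(k)`, in the letters of RC.
-/

set_option linter.all false

open Matrix Topology TopologicalSpace
open scoped LinearAlgebra.Projectivization

namespace Vale.Agent.P092.H575

open Vale.Agent.P092.H933 Vale.Agent.P092.H820 Vale.Agent.P092.H859.CL

section sl

variable {k : Type} [NontriviallyNormedField k] [ProperSpace k] [IsUltrametricDist k] {n : ℕ}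

theorem isCompact_sl (C : ℝ) :
    IsCompact {M : SpecialLinearGroup (Fin n) k | ∀ i j, ‖M.1 i j‖ ≤ C} := by
  have h1 : IsCompact {M : Matrix (Fin n) (Fin n) k | ∀ i j, ‖M i j‖ ≤ C} := by
    have h2 : {M : Matrix (Fin n) (Fin n) k | ∀ i j, ‖M i j‖ ≤ C} =
        Set.pi Set.univ fun _ : Fin n => Set.pi Set.univ fun _ : Fin n => Metric.closedBall (0 : k) C := by
      ext M
      constructor
      · intro h i _ j _
        exact mem_closedBall_zero_iff.2 (h i j)
      · intro h i j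
        exact mem_closedBall_zero_iff.1 (h i (Set.mem_univ i) j (Set.mem_univ j))
    rw [h2]
    exact isCompact_univ_pi fun _ => isCompact_univ_pi fun _ => isCompact_closedBall _ _
  exact Matrix.SpecialLinearGroup.isClosedEmbedding_val.isCompact_preimage h1

theorem sl_entry (hn : 0 < n) {B : ℝ} {M : SpecialLinearGroup (Fin n) k} {z : kˣ}
    {g : (Matrix (Fin n) (Fin n) k)ˣ} (hg : Bd B g) (h : M.1 = (z : k) • g.1) (i j : Fin n) :
    ‖M.1 i j‖ ≤ B * B := by
  have hB : 0 ≤ B := (norm_nonneg _).trans (hg.1 ⟨0, hn⟩ ⟨0, hn⟩)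
  have h1 : (z : k) ^ n * g.1.det = 1 := by
    have := M.2
    rw [h, det_smul, Fintype.card_fin] at this
    exact this
  have h2 : (z : k) ^ n = (g⁻¹).1.det := by
    have h3 : g.1.det * (g⁻¹).1.det = 1 := by rw [← det_mul, Units.mul_inv, det_one]
    calc (z : k) ^ n = (z : k) ^ n * (g.1.det * (g⁻¹).1.det) := by rw [h3, mul_one]
      _ = (z : k) ^ n * g.1.det * (g⁻¹).1.det := by ring
      _ = _ := by rw [h1, one_mul]
  have h3 : ‖(z : k)‖ ^ n ≤ B ^ n := by
    rw [← norm_pow, h2]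
    exact (norm_det_le_pow _).trans (pow_le_pow_left₀ (nr_nonneg _) (nr_le hB fun i j => hg.2 i j) _)
  have h4 : ‖(z : k)‖ ≤ B := le_of_pow_le_pow_left₀ hn.ne' hB h3
  rw [h, Matrix.smul_apply, smul_eq_mul, norm_mul]
  exact mul_le_mul h4 (hg.1 i j) (norm_nonneg _) hB

theorem sl_fin (hn : 0 < n) {Γ : Type} [Group Γ] (q : Γ →* SpecialLinearGroup (Fin n) k)
    (hq : Function.Injective q) (hd : DiscreteTopology q.range) (B : ℝ) :
    {γ : Γ | ∃ (z : kˣ) (g : (Matrix (Fin n) (Fin n) k)ˣ), Bd B g ∧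
      (q γ).1 = (z : k) • g.1}.Finite := by
  have hcl : IsClosed (q.range : Set (SpecialLinearGroup (Fin n) k)) :=
    Subgroup.isClosed_of_discrete
  have hK := (isCompact_sl (k := k) (n := n) (B * B)).inter_right hcl
  have hfin : ({M : SpecialLinearGroup (Fin n) k | ∀ i j, ‖M.1 i j‖ ≤ B * B} ∩
      (q.range : Set _)).Finite := by
    refine hK.finite (isDiscrete_iff_discreteTopology.2 ?_)
    exact DiscreteTopology.of_subset (s := (q.range : Set (SpecialLinearGroup (Fin n) k))) hd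
      Set.inter_subset_right
  refine (hfin.preimage (hq.injOn (s := q ⁻¹' _))).subset ?_
  rintro γ ⟨z, g, hg, h⟩
  exact ⟨fun i j => sl_entry hn hg h i j, γ, rfl⟩

/-- the embedding into `GL` -/
def tg {Γ : Type} [Group Γ] (q : Γ →* SpecialLinearGroup (Fin n) k) :
    Γ →* (Matrix (Fin n) (Fin n) k)ˣ :=
  (Matrix.SpecialLinearGroup.toGL : SpecialLinearGroup (Fin n) k →* GL (Fin n) k).comp q

theorem tg_val {Γ : Type} [Group Γ] (q : Γ →* SpecialLinearGroup (Fin n) k) (γ : Γ) :
    (tg q γ).1 = (q γ).1 := rfl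

theorem tg_inj {Γ : Type} [Group Γ] {q : Γ →* SpecialLinearGroup (Fin n) k}
    (hq : Function.Injective q) : Function.Injective (tg q) := by
  intro a b h
  refine hq (Subtype.ext ?_)
  exact congrArg Units.val h

theorem tg_smul {Γ : Type} [Group Γ] (q : Γ →* SpecialLinearGroup (Fin n) k) (γ : Γ)
    (y : ℙ k (Fin n → k)) : tg q γ • y = q γ • y := by
  obtain ⟨v, rfl⟩ := pj_surj y
  rfl

/-- **The geometric package** for a discrete group in `SL_n(k)`, `n ≥ 3`. -/
theorem cl_geo_sl (hn : 2 < n) {Γ : Type} [Group Γ] [SMul Γ (ℙ k (Fin n → k))]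
    (q : Γ →* SpecialLinearGroup (Fin n) k) (hq : Function.Injective q)
    (hd : DiscreteTopology q.range) (hsm : ∀ (s : Γ) (y : ℙ k (Fin n → k)), s • y = q s • y) :
    Geo (fun γ => g1 (q γ).1) (fun γ => g2 (q γ).1) (fun γ => bp (by omega) (tg q γ)) :=
  cl_geo hn (tg q) (fun s y => (hsm s y).trans (tg_smul q s y).symm)
    (sl_fin (by omega) q hq hd)

/-- The same in the letters of RC. -/
theorem cl_geo_rc {m : ℕ} (hm : 2 ≤ m) {Γ : Type} [Group Γ] [SMul Γ (RC.YY k m)]
    {q : Γ →* RC.GG k m} (hq : RC.Emb q) (hsm : ∀ (s : Γ) (y : RC.YY k m), s • y = q s • y) :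
    Geo (fun γ => g1 (q γ).1) (fun γ => g2 (q γ).1) (fun γ => bp (by omega) (tg q γ)) :=
  cl_geo_sl (by omega) q hq.inj hq.lat.disc hsm

end sl

end Vale.Agent.P092.H575
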