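import Vale.Agent.P092.H575.Geo

/-!
P092 (helper575), Team C: separation and finite overlap of the cones over disjoint clopen sets.
-/

set_option linter.all false

open Matrix Topology
open scoped LinearAlgebra.Projectivization

namespace Vale.Agent.P092.H575

open Vale.Agent.P092.H933 Vale.Agent.P092.H820

/-! ### Separated directions -/

section sepv

variable {k : Type*} [NormedField k] [IsUltrametricDist k] {ι : Type*} [Fintype ι]

/-- two unit vectors with separated directions -/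
def Sv (δ : ℝ) (w w' : ι → k) : Prop := ∀ a b : k, δ * ‖a‖ ≤ ‖a • w + b • w'‖ ∧
  δ * ‖b‖ ≤ ‖a • w + b • w'‖

theorem norm_add_eq_left {v w : ι → k} (h : ‖w‖ < ‖v‖) : ‖v + w‖ = ‖v‖ := by
  rw [IsUltrametricDist.norm_add_eq_max_of_norm_ne_norm h.ne']
  exact max_eq_left h.le

theorem Sv.symm {δ : ℝ} {w w' : ι → k} (h : Sv δ w w') : Sv δ w' w := by
  intro a b
  have := h b a
  rw [add_comm] at this
  exact ⟨this.2, this.1⟩

theorem exists_sv [ProperSpace k] {A A' : Set (ℙ k (ι → k))} (hA : IsClopen A)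
    (hd : Disjoint A A') : ∃ δ : ℝ, 0 < δ ∧ δ ≤ 1 ∧ ∀ v w : {v : ι → k // v ≠ 0}, ‖v.1‖ = 1 →
      ‖w.1‖ = 1 → pj k ι v ∈ A → pj k ι w ∈ A' → Sv δ v.1 w.1 := by
  obtain ⟨ε, hε, h⟩ := ucl hA
  refine ⟨min ε 1, lt_min hε one_pos, min_le_right _ _, fun v w hv hw hvA hwA => ?_⟩
  have key : ∀ c : k, min ε 1 ≤ ‖v.1 + c • w.1‖ := by
    intro c
    rcases lt_trichotomy ‖c‖ 1 with hc | hc | hc
    · rw [norm_add_eq_left (by rw [norm_smul, hv, hw, mul_one]; exact hc), hv]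
      exact min_le_right _ _
    · by_contra hlt
      push Not at hlt
      have hc0 : c ≠ 0 := norm_pos_iff.1 (by rw [hc]; exact one_pos)
      have hcw : (-c) • w.1 ≠ 0 := smul_ne_zero (neg_ne_zero.2 hc0) w.2
      have h1 := h v ⟨(-c) • w.1, hcw⟩ hv (by rw [norm_smul, norm_neg, hc, hw, one_mul])
        (by
          show ‖v.1 - (-c) • w.1‖ < ε
          rw [neg_smul, sub_neg_eq_add]
          exact lt_of_lt_of_le hlt (min_le_left _ _))
      have h2 : pj k ι ⟨(-c) • w.1, hcw⟩ = pj k ι w :=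
        (pj_eq _ _).2 ⟨Units.mk0 (-c) (neg_ne_zero.2 hc0), rfl⟩
      rw [h2] at h1
      exact Set.disjoint_left.1 hd (h1.1 hvA) hwA
    · have h1 : v.1 + c • w.1 = c • w.1 + v.1 := add_comm _ _
      rw [h1, norm_add_eq_left (by rw [norm_smul, hv, hw, mul_one]; exact hc), norm_smul, hw,
        mul_one]
      exact (min_le_right _ _).trans hc.le
  have hm : 0 ≤ min ε 1 := le_min hε.le zero_le_one
  have hm1 : min ε 1 ≤ 1 := min_le_right _ _
  intro a b
  by_cases ha : a = 0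
  · subst ha
    rw [zero_smul, zero_add, norm_smul, hw, mul_one, norm_zero, mul_zero]
    exact ⟨norm_nonneg _, mul_le_of_le_one_left (norm_nonneg _) hm1⟩
  · have h1 : a • v.1 + b • w.1 = a • (v.1 + (b / a) • w.1) := by
      rw [smul_add, smul_smul, mul_div_cancel₀ _ ha]
    have h2 := key (b / a)
    have h3 : min ε 1 * ‖a‖ ≤ ‖a • v.1 + b • w.1‖ := by
      rw [h1, norm_smul, mul_comm]
      exact mul_le_mul_of_nonneg_left h2 (norm_nonneg _)
    refine ⟨h3, ?_⟩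
    by_cases hb : ‖b‖ ≤ ‖a‖
    · exact (mul_le_mul_of_nonneg_left hb hm).trans h3
    · push Not at hb
      have h4 : a • v.1 + b • w.1 = b • w.1 + a • v.1 := add_comm _ _
      rw [h4, norm_add_eq_left (by rw [norm_smul, norm_smul, hv, hw, mul_one, mul_one]; exact hb),
        norm_smul, hw, mul_one]
      exact mul_le_of_le_one_left (norm_nonneg _) hm1

end sepv

/-! ### Singular values of matrices close to rank one -/

section rank

variable {k : Type*} [NormedField k] [IsUltrametricDist k] {n : ℕ}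

/-- a diagonal matrix with two large entries is not close to rank one -/
theorem diag_rank {d : Fin n → k} {p q : Fin n} (hpq : p ≠ q) (hd : ‖d q‖ ≤ ‖d p‖)
    {x φ : Fin n → k} {ρ : ℝ} (h : ∀ i j, ‖diagonal d i j - x i * φ j‖ ≤ ρ) : ‖d q‖ ≤ ρ := by
  by_contra hlt
  push Not at hlt
  have h1 : ‖x p * φ p‖ = ‖d p‖ := by
    refine norm_eq_of_lt ?_
    have := h p p
    rw [Matrix.diagonal_apply_eq] at this
    exact lt_of_le_of_lt this (hlt.trans_le hd)
  have h2 : ‖x q * φ q‖ = ‖d q‖ := by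
    refine norm_eq_of_lt ?_
    have := h q q
    rw [Matrix.diagonal_apply_eq] at this
    exact lt_of_le_of_lt this hlt
  have h3 : ‖x p * φ q‖ < ‖d q‖ := by
    have := h p q
    rw [Matrix.diagonal_apply_ne _ hpq, zero_sub, norm_neg] at this
    exact lt_of_le_of_lt this hlt
  have h4 : ‖x q * φ p‖ < ‖d q‖ := by
    have := h q p
    rw [Matrix.diagonal_apply_ne _ hpq.symm, zero_sub, norm_neg] at this
    exact lt_of_le_of_lt this hlt
  have h5 : ‖x p * φ p‖ * ‖x q * φ q‖ = ‖x p * φ q‖ * ‖x q * φ p‖ := by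
    simp only [norm_mul]; ring
  rw [h1, h2] at h5
  have h6 : ‖x p * φ q‖ * ‖x q * φ p‖ < ‖d q‖ * ‖d q‖ :=
    mul_lt_mul'' h3 h4 (norm_nonneg _) (norm_nonneg _)
  have h7 : ‖d q‖ * ‖d q‖ ≤ ‖d p‖ * ‖d q‖ := mul_le_mul_of_nonneg_right hd (norm_nonneg _)
  linarith

/-- conjugating a near rank one matrix by integral matrices -/
theorem rank_conj {M U V : Matrix (Fin n) (Fin n) k} (hU : ∀ i j, ‖U i j‖ ≤ 1)
    (hV : ∀ i j, ‖V i j‖ ≤ 1) {x φ : Fin n → k} {ρ : ℝ} (hρ : 0 ≤ ρ)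
    (h : ∀ i j, ‖M i j - x i * φ j‖ ≤ ρ) :
    ∃ x' φ' : Fin n → k, ∀ i j, ‖(U * M * V) i j - x' i * φ' j‖ ≤ ρ := by
  refine ⟨U *ᵥ x, φ ᵥ* V, fun i j => ?_⟩
  have h1 : (U * M * V) i j - (U *ᵥ x) i * (φ ᵥ* V) j =
      (U * (Matrix.of fun a b => M a b - x a * φ b) * V) i j := by
    have h2 : (Matrix.of fun a b => M a b - x a * φ b) = M - Matrix.vecMulVec x φ := by
      ext a b
      rw [Matrix.sub_apply, Matrix.vecMulVec_apply, Matrix.of_apply]
    rw [h2, Matrix.mul_sub, Matrix.sub_mul, Matrix.sub_apply, Matrix.mul_vecMulVec,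
      Matrix.vecMulVec_mul, Matrix.vecMulVec_apply]
  rw [h1]
  have h3 := mul_entry_le' zero_le_one hρ hU
    (B := Matrix.of fun a b => M a b - x a * φ b) (fun i j => h i j)
  have h4 := mul_entry_le' (by rw [one_mul]; exact hρ) zero_le_one h3 hV i j
  rwa [one_mul, mul_one] at h4

/-- the second singular value of a matrix close to rank one -/
theorem sv_one_le (hn : 1 < n) {M : Matrix (Fin n) (Fin n) k} {x φ : Fin n → k} {ρ : ℝ}
    (hρ : 0 ≤ ρ) (h : ∀ i j, ‖M i j - x i * φ j‖ ≤ ρ) : sv M ⟨1, hn⟩ ≤ ρ := by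
  obtain ⟨x', φ', h'⟩ := rank_conj (car M).hu.lei (car M).hv.lei hρ h
  have h1 : (car M).ui * M * (car M).vi = diagonal (car M).a := by
    have h0 : (car M).ui * M * (car M).vi =
        (car M).ui * ((car M).u * diagonal (car M).a * (car M).v) * (car M).vi :=
      congrArg (fun X => (car M).ui * X * (car M).vi) (car M).eq
    rw [h0]
    calc _ = ((car M).ui * (car M).u) * diagonal (car M).a * ((car M).v * (car M).vi) := by
          simp only [Matrix.mul_assoc]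
      _ = _ := by rw [(car M).hu.mul', (car M).hv.mul, Matrix.one_mul, Matrix.mul_one]
  rw [h1] at h'
  refine diag_rank (p := ⟨0, by omega⟩) (q := ⟨1, hn⟩) (by
    intro h0
    have := congrArg Fin.val h0
    simp at this) ?_ h'
  exact (car M).anti (Fin.le_def.2 (Nat.zero_le _))

/-- the singular values of the inverse -/
theorem car_inv (γ : (Matrix (Fin n) (Fin n) k)ˣ) :
    (car γ.1).v * (γ⁻¹).1 * (car γ.1).u = diagonal fun i => ((car γ.1).a i)⁻¹ := by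
  have hdet : γ.1.det ≠ 0 := (Matrix.isUnits_det_units γ).ne_zero
  have h1 : diagonal (car γ.1).a * ((car γ.1).v * (γ⁻¹).1 * (car γ.1).u) = 1 := by
    have h0 : diagonal (car γ.1).a = (car γ.1).ui * γ.1 * (car γ.1).vi := by
      have h2 : (car γ.1).ui * γ.1 * (car γ.1).vi =
          (car γ.1).ui * ((car γ.1).u * diagonal (car γ.1).a * (car γ.1).v) * (car γ.1).vi :=
        congrArg (fun X => (car γ.1).ui * X * (car γ.1).vi) (car γ.1).eq
      rw [h2]
      calc diagonal (car γ.1).a = 1 * diagonal (car γ.1).a * 1 := by rw [one_mul, mul_one]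
        _ = ((car γ.1).ui * (car γ.1).u) * diagonal (car γ.1).a *
            ((car γ.1).v * (car γ.1).vi) := by rw [(car γ.1).hu.mul', (car γ.1).hv.mul]
        _ = _ := by simp only [Matrix.mul_assoc]
    rw [h0]
    calc (car γ.1).ui * γ.1 * (car γ.1).vi * ((car γ.1).v * (γ⁻¹).1 * (car γ.1).u)
        = (car γ.1).ui * (γ.1 * (((car γ.1).vi * (car γ.1).v) * (γ⁻¹).1)) * (car γ.1).u := by
          simp only [Matrix.mul_assoc]
      _ = 1 := by
          rw [(car γ.1).hv.mul', Matrix.one_mul, Units.mul_inv, Matrix.mul_one, (car γ.1).hu.mul']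
  have h3 : (diagonal fun i => ((car γ.1).a i)⁻¹) * diagonal (car γ.1).a = 1 := by
    rw [diagonal_mul_diagonal, ← diagonal_one]
    congr 1
    funext i
    exact inv_mul_cancel₀ (a_ne hdet i)
  calc _ = ((diagonal fun i => ((car γ.1).a i)⁻¹) * diagonal (car γ.1).a) *
        ((car γ.1).v * (γ⁻¹).1 * (car γ.1).u) := by rw [h3, Matrix.one_mul]
    _ = _ := by rw [Matrix.mul_assoc, h1, Matrix.mul_one]

theorem le_sv_of_inv (hn : 1 < n) {γ : (Matrix (Fin n) (Fin n) k)ˣ} {x φ : Fin n → k} {ρ : ℝ}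
    (hρ : 0 < ρ) (h : ∀ i j, ‖(γ⁻¹).1 i j - x i * φ j‖ ≤ ρ) :
    ρ⁻¹ ≤ sv γ.1 ⟨n - 2, by omega⟩ := by
  have hdet : γ.1.det ≠ 0 := (Matrix.isUnits_det_units γ).ne_zero
  obtain ⟨x', φ', h'⟩ := rank_conj (car γ.1).hv.le (car γ.1).hu.le hρ.le h
  rw [car_inv] at h'
  have h1 := diag_rank (d := fun i => ((car γ.1).a i)⁻¹) (p := ⟨n - 1, by omega⟩)
    (q := ⟨n - 2, by omega⟩) (by
      intro h0
      have := congrArg Fin.val h0
      simp only at this
      omega) (by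
      simp only [norm_inv]
      refine inv_anti₀ (sv_pos hdet _) ((car γ.1).anti (Fin.le_def.2 ?_))
      show n - 2 ≤ n - 1
      omega) h'
  rw [norm_inv] at h1
  exact inv_le_of_inv_le₀ (sv_pos hdet _) h1

theorem nr_inv_eq (hn : 0 < n) (γ : (Matrix (Fin n) (Fin n) k)ˣ) :
    nr (γ⁻¹).1 ≤ (sv γ.1 ⟨n - 1, by omega⟩)⁻¹ := by
  have hdet : γ.1.det ≠ 0 := (Matrix.isUnits_det_units γ).ne_zero
  have h0 := sv_pos hdet ⟨n - 1, by omega⟩
  have h1 : (γ⁻¹).1 = (car γ.1).vi * (diagonal fun i => ((car γ.1).a i)⁻¹) * (car γ.1).ui := by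
    rw [← car_inv]
    calc (γ⁻¹).1 = 1 * (γ⁻¹).1 * 1 := by rw [Matrix.one_mul, Matrix.mul_one]
      _ = ((car γ.1).vi * (car γ.1).v) * (γ⁻¹).1 * ((car γ.1).u * (car γ.1).ui) := by
          rw [(car γ.1).hv.mul', (car γ.1).hu.mul]
      _ = _ := by simp only [Matrix.mul_assoc]
  rw [h1]
  refine nr_le (inv_nonneg.2 h0.le) fun i j => ?_
  have h2 : ∀ i j, ‖(diagonal fun i => ((car γ.1).a i)⁻¹) i j‖ ≤
      (sv γ.1 ⟨n - 1, by omega⟩)⁻¹ := by
    intro i j
    rw [Matrix.diagonal_apply]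
    split_ifs
    · rw [norm_inv]
      refine inv_anti₀ h0 ((car γ.1).anti (Fin.le_def.2 ?_))
      show (i : ℕ) ≤ n - 1
      omega
    · rw [norm_zero]; exact inv_nonneg.2 h0.le
  have h3 := mul_entry_le' zero_le_one (inv_nonneg.2 h0.le) (car γ.1).hv.lei h2
  have h4 := mul_entry_le' (by rw [one_mul]; exact inv_nonneg.2 h0.le) zero_le_one h3
    (car γ.1).hu.lei i j
  rwa [one_mul, mul_one] at h4

end rank

/-! ### Cone forms -/

section cf

variable {k : Type*} [NormedField k] [IsUltrametricDist k] {n : ℕ}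

/-- a cone form of `x`, with base vector the `o`-th column of `c` -/
structure CF (o : Fin n) (B : ℝ) (x c : (Matrix (Fin n) (Fin n) k)ˣ) (α : kˣ)
    (κ : (Matrix (Fin n) (Fin n) k)ˣ) (z : kˣ) : Prop where
  bd : Bd B c
  one : 1 ≤ ‖(α : k)‖
  int : κ ∈ KK k (Fin n)
  eq : x.1 = (z : k) • (c * dg o α * κ).1

theorem norm_inv_unit (z : kˣ) : ‖((z⁻¹ : kˣ) : k)‖ = ‖(z : k)‖⁻¹ := by
  rw [Units.val_inv_eq_inv_val, norm_inv]

theorem dg_inv_entry (o : Fin n) (α : kˣ) : ∀ i : Fin n, 1 ≤ ‖(α : k)‖ →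
    ‖(if i = o then ((α⁻¹ : kˣ) : k) else 1)‖ ≤ 1 := by
  intro i hα
  split_ifs
  · rw [norm_inv_unit]; exact inv_le_one_of_one_le₀ hα
  · rw [norm_one]

theorem cf_quot {o : Fin n} {B : ℝ} {x y c c' κ κ' : (Matrix (Fin n) (Fin n) k)ˣ}
    {α β z z' : kˣ} (hx : CF o B x c α κ z) (hy : CF o B y c' β κ' z') :
    (x⁻¹ * y).1 = ((z⁻¹ * z' : kˣ) : k) •
      ((κ⁻¹).1 * ((dg o α)⁻¹ * (c⁻¹ * c') * dg o β).1 * κ'.1) := by
  have h1 := inv_of_smul hx.eq
  rw [Units.val_mul, h1, hy.eq, Matrix.smul_mul, Matrix.mul_smul, smul_smul,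
    ← Units.val_mul (c * dg o α * κ)⁻¹, ← Units.val_mul z⁻¹ z']
  congr 1
  rw [← Units.val_mul, ← Units.val_mul]
  congr 1
  group

/-- far apart base points: the quotient is large and close to rank one -/
theorem quot_far {o : Fin n} {B δ : ℝ} (hB : 1 ≤ B) (hδ : 0 < δ)
    {x y c c' κ κ' : (Matrix (Fin n) (Fin n) k)ˣ} {α β z z' : kˣ}
    (hx : CF o B x c α κ z) (hy : CF o B y c' β κ' z')
    (hs : Sv δ (fun i => c.1 i o) (fun i => c'.1 i o)) :
    ‖((z⁻¹ * z' : kˣ) : k)‖ * (‖(β : k)‖ * (δ / (2 * B))) ≤ nr (x⁻¹ * y).1 ∧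
    ∃ u φ : Fin n → k, ∀ i j, ‖(x⁻¹ * y).1 i j - u i * φ j‖ ≤
      ‖((z⁻¹ * z' : kˣ) : k)‖ * (B * B) := by
  have hB0 : 0 < B := by linarith
  have he := cf_quot hx hy
  obtain ⟨t, ht⟩ : ∃ t : kˣ, t = z⁻¹ * z' := ⟨_, rfl⟩
  rw [← ht] at he ⊢
  have ht0 : 0 < ‖(t : k)‖ := norm_pos_iff.2 t.ne_zero
  set M : (Matrix (Fin n) (Fin n) k)ˣ := (dg o α)⁻¹ * (c⁻¹ * c') * dg o β with hM
  have hMe : ∀ i j, M.1 i j = (if i = o then ((α⁻¹ : kˣ) : k) else 1) * (c⁻¹ * c').1 i j *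
      (if j = o then (β : k) else 1) := fun i j => conj_entry o β α (c⁻¹ * c') i j
  have hg : Bd (B * B) (c⁻¹ * c') := hx.bd.inv.mul hy.bd
  constructor
  · -- a large entry
    obtain ⟨i, hi, hgi⟩ : ∃ i, i ≠ o ∧ δ / (2 * B) ≤ ‖(c⁻¹ * c').1 i o‖ := by
      by_contra hcon
      push Not at hcon
      have h1 : ∀ i, c'.1 i o - c.1 i o * (c⁻¹ * c').1 o o =
          ∑ l ∈ Finset.univ.erase o, c.1 i l * (c⁻¹ * c').1 l o := by
        intro i
        have h2 : c' = c * (c⁻¹ * c') := by group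
        have h3 : c'.1 i o = ∑ l, c.1 i l * (c⁻¹ * c').1 l o := by
          conv_lhs => rw [h2]
          rw [Units.val_mul, Matrix.mul_apply]
        rw [h3, ← Finset.add_sum_erase Finset.univ (fun l => c.1 i l * (c⁻¹ * c').1 l o)
          (Finset.mem_univ o)]
        ring
      have h2 := (hs.symm 1 (-(c⁻¹ * c').1 o o)).1
      rw [norm_one, mul_one] at h2
      have h3 : ‖((1 : k) • (fun i => c'.1 i o) + (-(c⁻¹ * c').1 o o) • fun i => c.1 i o)‖ ≤
          δ / 2 := by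
        refine (pi_norm_le_iff_of_nonneg (by positivity)).2 fun i => ?_
        have h4 : ((1 : k) • (fun i => c'.1 i o) + (-(c⁻¹ * c').1 o o) • fun i => c.1 i o) i =
            c'.1 i o - c.1 i o * (c⁻¹ * c').1 o o := by
          simp only [Pi.add_apply, Pi.smul_apply, smul_eq_mul]
          ring
        rw [h4, h1]
        refine IsUltrametricDist.norm_sum_le_of_forall_le_of_nonneg (by positivity)
          fun l hl => ?_
        rw [norm_mul]
        calc ‖c.1 i l‖ * ‖(c⁻¹ * c').1 l o‖ ≤ B * (δ / (2 * B)) :=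
              mul_le_mul (hx.bd.1 i l) (hcon l (Finset.ne_of_mem_erase hl)).le (norm_nonneg _)
                hB0.le
          _ = δ / 2 := by field_simp
      linarith
    have h1 : M.1 = ((t⁻¹ : kˣ) : k) • (κ.1 * (x⁻¹ * y).1 * (κ'⁻¹).1) := by
      rw [he, Matrix.mul_smul, Matrix.smul_mul, smul_smul, Units.inv_mul, one_smul]
      rw [← Units.val_mul, ← Units.val_mul, ← Units.val_mul, ← Units.val_mul]
      congr 1
      group
    have h2 : ‖M.1 i o‖ ≤ ‖(t : k)‖⁻¹ * nr (x⁻¹ * y).1 := by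
      rw [h1, Matrix.smul_apply, smul_eq_mul, norm_mul, norm_inv_unit]
      refine mul_le_mul_of_nonneg_left ?_ (inv_nonneg.2 ht0.le)
      have h3 := mul_entry_le' zero_le_one (nr_nonneg _) (mem_KK.1 hx.int).1
        (entry_le_nr (x⁻¹ * y).1)
      have h4 := mul_entry_le' (by rw [one_mul]; exact nr_nonneg _) zero_le_one h3
        (mem_KK.1 hy.int).2 i o
      rwa [one_mul, mul_one] at h4
    rw [hMe, if_neg hi, if_pos rfl, one_mul, norm_mul] at h2
    rw [← le_inv_mul_iff₀ ht0]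
    refine le_trans ?_ h2
    rw [mul_comm]
    exact mul_le_mul_of_nonneg_right hgi (norm_nonneg _)
  · have h1 : ∀ i j, ‖M.1 i j - M.1 i o * (if j = o then (1 : k) else 0)‖ ≤ B * B := by
      intro i j
      by_cases hj : j = o
      · rw [if_pos hj, mul_one, hj, sub_self, norm_zero]
        positivity
      · rw [if_neg hj, mul_zero, sub_zero, hMe, if_neg hj, mul_one, norm_mul]
        calc _ ≤ 1 * (B * B) := mul_le_mul (dg_inv_entry o α i hx.one) (hg.1 i j)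
              (norm_nonneg _) zero_le_one
          _ = _ := one_mul _
    obtain ⟨u, φ, h2⟩ := rank_conj (mem_KK.1 hx.int).2 (mem_KK.1 hy.int).1 (by positivity) h1
    refine ⟨fun i => (t : k) * u i, φ, fun i j => ?_⟩
    have e1 : (x⁻¹ * y).1 i j = (t : k) * ((κ⁻¹).1 * M.1 * κ'.1) i j := by rw [he]; rfl
    have e2 : (t : k) * ((κ⁻¹).1 * M.1 * κ'.1) i j - (t : k) * u i * φ j =
        (t : k) * (((κ⁻¹).1 * M.1 * κ'.1) i j - u i * φ j) := by ring
    rw [e1]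
    show ‖(t : k) * ((κ⁻¹).1 * M.1 * κ'.1) i j - (t : k) * u i * φ j‖ ≤ _
    rw [e2, norm_mul]
    exact mul_le_mul_of_nonneg_left (h2 i j) ht0.le

/-- **Separation of cones**: the quotient has both gaps large. -/
theorem far_aux (hn : 2 < n) {o : Fin n} {B δ : ℝ} (hB : 1 ≤ B) (hδ : 0 < δ)
    {x y c c' κ κ' : (Matrix (Fin n) (Fin n) k)ˣ} {α β z z' : kˣ}
    (hx : CF o B x c α κ z) (hy : CF o B y c' β κ' z')
    (hs : Sv δ (fun i => c.1 i o) (fun i => c'.1 i o)) :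
    ‖(β : k)‖ * (δ / (2 * B ^ 3)) ≤ q1 (by omega) (x⁻¹ * y).1 ∧
    ‖(α : k)‖ * (δ / (2 * B ^ 3)) ≤ q2 (by omega) (x⁻¹ * y).1 := by
  have hB0 : 0 < B := by linarith
  have hdet : (x⁻¹ * y).1.det ≠ 0 := (Matrix.isUnits_det_units _).ne_zero
  obtain ⟨h1, u, φ, h2⟩ := quot_far hB hδ hx hy hs
  obtain ⟨h3, u', φ', h4⟩ := quot_far hB hδ hy hx hs.symm
  have hti : ‖((z'⁻¹ * z : kˣ) : k)‖ = ‖((z⁻¹ * z' : kˣ) : k)‖⁻¹ := by
    have h0 : (z'⁻¹ * z : kˣ) = (z⁻¹ * z')⁻¹ := by rw [_root_.mul_inv_rev, inv_inv]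
    rw [h0, norm_inv_unit]
  have ht0 : 0 < ‖((z⁻¹ * z' : kˣ) : k)‖ := norm_pos_iff.2 (Units.ne_zero _)
  rw [hti] at h3 h4
  have hinv : y⁻¹ * x = (x⁻¹ * y)⁻¹ := by group
  rw [hinv] at h3 h4
  generalize ‖((z⁻¹ * z' : kˣ) : k)‖ = t at h1 h2 h3 h4 ht0
  have hα0 : 0 < ‖(α : k)‖ := by linarith [hx.one]
  have hβ0 : 0 < ‖(β : k)‖ := by linarith [hy.one]
  have hs1 := sv_one_le (by omega : 1 < n) (mul_nonneg ht0.le (by positivity)) h2
  have hs0 := nr_le_sv (x⁻¹ * y).1 (by omega)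
  have hs2 := le_sv_of_inv (by omega : 1 < n) (γ := x⁻¹ * y)
    (mul_pos (inv_pos.2 ht0) (by positivity)) h4
  have hs3 := nr_inv_eq (by omega) (x⁻¹ * y)
  have p1 := sv_pos hdet ⟨1, by omega⟩
  have pn := sv_pos hdet ⟨n - 1, by omega⟩
  constructor
  · rw [q1, le_div_iff₀ p1]
    calc ‖(β : k)‖ * (δ / (2 * B ^ 3)) * sv (x⁻¹ * y).1 ⟨1, by omega⟩
        ≤ ‖(β : k)‖ * (δ / (2 * B ^ 3)) * (t * (B * B)) :=
          mul_le_mul_of_nonneg_left hs1 (by positivity)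
      _ = t * (‖(β : k)‖ * (δ / (2 * B))) := by field_simp
      _ ≤ _ := h1.trans hs0
  · rw [q2, le_div_iff₀ pn]
    have h5 : sv (x⁻¹ * y).1 ⟨n - 2, by omega⟩ ≤ sv (x⁻¹ * y).1 ⟨1, by omega⟩ := by
      refine sv_anti _ (Fin.le_def.2 ?_)
      show 1 ≤ n - 2
      omega
    have h6 : sv (x⁻¹ * y).1 ⟨n - 1, by omega⟩ ≤ t * (2 * B) / (‖(α : k)‖ * δ) := by
      have h7 : (t⁻¹ * (‖(α : k)‖ * (δ / (2 * B)))) ≤ (sv (x⁻¹ * y).1 ⟨n - 1, by omega⟩)⁻¹ :=
        h3.trans hs3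
      have h8 := inv_le_of_inv_le₀ (by positivity : 0 < t⁻¹ * (‖(α : k)‖ * (δ / (2 * B))))
        (a := t⁻¹ * (‖(α : k)‖ * (δ / (2 * B)))) (b := (sv (x⁻¹ * y).1 ⟨n - 1, by omega⟩))
      have h9 := inv_anti₀ (by positivity) h7
      rw [inv_inv] at h9
      refine h9.trans (le_of_eq ?_)
      field_simp
    calc ‖(α : k)‖ * (δ / (2 * B ^ 3)) * sv (x⁻¹ * y).1 ⟨n - 1, by omega⟩
        ≤ ‖(α : k)‖ * (δ / (2 * B ^ 3)) * (t * (2 * B) / (‖(α : k)‖ * δ)) :=
          mul_le_mul_of_nonneg_left h6 (by positivity)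
      _ = (t⁻¹ * (B * B))⁻¹ := by field_simp
      _ ≤ _ := hs2.trans h5

/-! ### Finite overlap -/

theorem half_dec {o : Fin n} {B : ℝ} {c c' κ : (Matrix (Fin n) (Fin n) k)ˣ} (α : kˣ) {β : kˣ}
    (hc : Bd B c) (hc' : Bd B c') (hκ : κ ∈ KK k (Fin n)) (hβ : 1 ≤ ‖(β : k)‖) :
    ∃ ψ : Fin n → k, ∀ i j, ‖(c * dg o α * κ * (dg o β)⁻¹ * c'⁻¹).1 i j - c.1 i o * ψ j‖ ≤
      B * B := by
  obtain ⟨N, hN⟩ : ∃ N, N = dg o α * κ * (dg o β)⁻¹ := ⟨_, rfl⟩
  have hNe : ∀ i j, N.1 i j = (if i = o then (α : k) else 1) * κ.1 i j *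
      (if j = o then ((β⁻¹ : kˣ) : k) else 1) := by
    intro i j
    rw [hN, Units.val_mul, Units.val_mul, dg_val, dg_inv_val, Matrix.mul_diagonal,
      Matrix.diagonal_mul]
  obtain ⟨D, hD⟩ : ∃ D : Matrix (Fin n) (Fin n) k,
      D = Matrix.of fun i j => N.1 i j - (if i = o then (1 : k) else 0) * N.1 o j := ⟨_, rfl⟩
  have hDc : Cl D 1 := by
    intro i j
    rw [hD, Matrix.of_apply]
    by_cases hi : i = o
    · rw [if_pos hi, one_mul, hi, sub_self, norm_zero]; exact zero_le_one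
    · rw [if_neg hi, zero_mul, sub_zero, hNe, if_neg hi, one_mul, norm_mul]
      exact mul_le_one₀ ((mem_KK.1 hκ).1 i j) (norm_nonneg _) (dg_inv_entry o β j hβ)
  refine ⟨fun j => ∑ l, N.1 o l * (c'⁻¹).1 l j, fun i j => ?_⟩
  have h1 : c * dg o α * κ * (dg o β)⁻¹ * c'⁻¹ = c * N * c'⁻¹ := by rw [hN]; group
  have h2 : (c * N * c'⁻¹).1 i j - c.1 i o * ∑ l, N.1 o l * (c'⁻¹).1 l j =
      (c.1 * D * (c'⁻¹).1) i j := by
    have h3 : N.1 = D + Matrix.of fun i j => (if i = o then (1 : k) else 0) * N.1 o j := by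
      rw [hD]
      ext a b
      simp only [Matrix.add_apply, Matrix.of_apply, sub_add_cancel]
    have h4 : (c.1 * (Matrix.of fun i j => (if i = o then (1 : k) else 0) * N.1 o j) *
        (c'⁻¹).1) i j = c.1 i o * ∑ l, N.1 o l * (c'⁻¹).1 l j := by
      rw [Matrix.mul_apply, Finset.mul_sum]
      refine Finset.sum_congr rfl fun l _ => ?_
      rw [Matrix.mul_apply]
      simp only [Matrix.of_apply, ite_mul, one_mul, zero_mul, mul_ite, mul_zero]
      rw [Finset.sum_ite_eq' Finset.univ o, if_pos (Finset.mem_univ o), mul_assoc]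
    rw [Units.val_mul, Units.val_mul]
    conv_lhs => rw [h3]
    rw [Matrix.mul_add, Matrix.add_mul, Matrix.add_apply]
    rw [h4]
    have h5 : ∀ l, (D + Matrix.of fun i j => (if i = o then (1 : k) else 0) * N.1 o j) o l =
        N.1 o l := fun l => by rw [← h3]
    simp only [h5]
    rw [add_sub_cancel_right]
  rw [h1, h2]
  have h3 := (hc.1.mul hDc).mul hc'.2
  rw [mul_one] at h3
  exact h3 i j

end cf

end Vale.Agent.P092.H575
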