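import Vale.Agent.P092.H575.Uni

/-!
P092 (helper575), Team C, [C-CONE]: the cones in `GL_n(k)` over compact open sets of `G/Q`,
`Q` = the elements of the stabiliser of a point with integral (up to scalars) Levi part.
-/

set_option linter.all false

open Matrix Topology

namespace Vale.Agent.P092.H575

section cone

variable {k : Type*} [NormedField k] [IsUltrametricDist k] {ι : Type*} [Fintype ι] [DecidableEq ι]

/-- bounded elements -/
def Bd (C : ℝ) (g : (Matrix ι ι k)ˣ) : Prop := Cl g.1 C ∧ Cl (g⁻¹).1 C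

/-- the maximal compact subgroup -/
def KK (k : Type*) [NormedField k] [IsUltrametricDist k] (ι : Type*) [Fintype ι]
    [DecidableEq ι] : Subgroup (Matrix ι ι k)ˣ := cg k ι 1 zero_le_one

theorem mem_KK {x : (Matrix ι ι k)ˣ} : x ∈ KK k ι ↔ Bd 1 x := by
  constructor
  · exact fun h => ⟨h.1.1, h.2.1⟩
  · exact fun h => ⟨⟨h.1, h.1.sub Cl.one⟩, h.2, h.2.sub Cl.one⟩

theorem Bd.mono {C C' : ℝ} {g : (Matrix ι ι k)ˣ} (h : Bd C g) (hC : C ≤ C') : Bd C' g :=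
  ⟨h.1.mono hC, h.2.mono hC⟩

theorem Bd.inv {C : ℝ} {g : (Matrix ι ι k)ˣ} (h : Bd C g) : Bd C g⁻¹ :=
  ⟨h.2, by rw [inv_inv]; exact h.1⟩

theorem Bd.mul {C C' : ℝ} {g g' : (Matrix ι ι k)ˣ} (h : Bd C g) (h' : Bd C' g') :
    Bd (C * C') (g * g') :=
  ⟨h.1.mul h'.1, by rw [_root_.mul_inv_rev, mul_comm C]; exact h'.2.mul h.2⟩

variable (o : ι)

/-- `diag(α, 1, …, 1)` -/
def dg (α : kˣ) : (Matrix ι ι k)ˣ where
  val := diagonal fun i => if i = o then (α : k) else 1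
  inv := diagonal fun i => if i = o then ((α⁻¹ : kˣ) : k) else 1
  val_inv := by
    rw [diagonal_mul_diagonal, ← diagonal_one]
    congr 1
    funext i
    split_ifs <;> simp
  inv_val := by
    rw [diagonal_mul_diagonal, ← diagonal_one]
    congr 1
    funext i
    split_ifs <;> simp

theorem dg_val (α : kˣ) : (dg o α).1 = diagonal fun i => if i = o then (α : k) else 1 := rfl

theorem dg_inv_val (α : kˣ) :
    ((dg o α)⁻¹).1 = diagonal fun i => if i = o then ((α⁻¹ : kˣ) : k) else 1 := rfl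

theorem dg_mul (α β : kˣ) : dg o α * dg o β = dg o (α * β) := by
  ext i j
  rw [Units.val_mul, dg_val, dg_val, dg_val, diagonal_mul_diagonal]
  congr 2
  funext i
  split_ifs <;> simp

/-- entries of `a_β⁻¹ g a_α` -/
theorem conj_entry (α β : kˣ) (g : (Matrix ι ι k)ˣ) (i j : ι) :
    ((dg o β)⁻¹ * g * dg o α).1 i j =
      (if i = o then ((β⁻¹ : kˣ) : k) else 1) * g.1 i j * (if j = o then (α : k) else 1) := by
  rw [Units.val_mul, Units.val_mul, dg_val, dg_inv_val, Matrix.mul_diagonal,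
    Matrix.diagonal_mul]

/-- the stabiliser of the line of `e_o` -/
def PP : Subgroup (Matrix ι ι k)ˣ where
  carrier := {g | ∀ i, i ≠ o → g.1 i o = 0}
  one_mem' := fun i hi => by rw [Units.val_one, Matrix.one_apply_ne hi]
  mul_mem' := by
    intro g h hg hh i hi
    rw [Units.val_mul, Matrix.mul_apply]
    refine Finset.sum_eq_zero fun l _ => ?_
    by_cases hl : l = o
    · subst hl; rw [hg i hi, zero_mul]
    · rw [hh l hl, mul_zero]
  inv_mem' := by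
    intro g hg
    have key : ∀ i, ((g⁻¹).1 * g.1) i o = (g⁻¹).1 i o * g.1 o o := by
      intro i
      rw [Matrix.mul_apply]
      refine Finset.sum_eq_single o (fun l _ hl => ?_) fun h => absurd (Finset.mem_univ o) h
      rw [hg l hl, mul_zero]
    have h1 : g.1 o o ≠ 0 := by
      intro h0
      have := key o
      rw [Units.inv_mul, Matrix.one_apply_eq, h0, mul_zero] at this
      exact one_ne_zero this
    intro i hi
    have h2 := key i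
    rw [Units.inv_mul, Matrix.one_apply_ne hi] at h2
    exact (mul_eq_zero.1 h2.symm).resolve_right h1

theorem mem_PP {g : (Matrix ι ι k)ˣ} : g ∈ PP (k := k) o ↔ ∀ i, i ≠ o → g.1 i o = 0 := Iff.rfl

theorem PP_block {g h : (Matrix ι ι k)ˣ} (hh : h ∈ PP (k := k) o) {r s : ℝ}
    (hr : 0 ≤ r) (hs : 0 ≤ s)
    (h1 : ∀ i j, i ≠ o → j ≠ o → ‖g.1 i j‖ ≤ r) (h2 : ∀ i j, i ≠ o → j ≠ o → ‖h.1 i j‖ ≤ s)
    (hg : g ∈ PP (k := k) o) :
    ∀ i j, i ≠ o → j ≠ o → ‖(g * h).1 i j‖ ≤ r * s := by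
  intro i j hi hj
  rw [Units.val_mul, Matrix.mul_apply]
  refine IsUltrametricDist.norm_sum_le_of_forall_le_of_nonneg (mul_nonneg hr hs) fun l _ => ?_
  by_cases hl : l = o
  · rw [hl, (mem_PP o).1 hg i hi, zero_mul, norm_zero]
    exact mul_nonneg hr hs
  · rw [norm_mul]
    exact mul_le_mul (h1 i l hi hl) (h2 l j hl hj) (norm_nonneg _) hr

/-- the elements of the stabiliser with integral Levi part, up to scalars -/
def QQ : Subgroup (Matrix ι ι k)ˣ where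
  carrier := {g | g ∈ PP (k := k) o ∧ ∃ z : kˣ, (∀ i j, i ≠ o → j ≠ o → ‖g.1 i j‖ ≤ ‖(z : k)‖) ∧
    ∀ i j, i ≠ o → j ≠ o → ‖(g⁻¹).1 i j‖ ≤ ‖(z : k)‖⁻¹}
  one_mem' := by
    refine ⟨(PP o).one_mem, 1, fun i j _ _ => ?_, fun i j _ _ => ?_⟩
    · rw [Units.val_one, Units.val_one, norm_one]; exact Cl.one i j
    · rw [inv_one, Units.val_one, Units.val_one, norm_one, inv_one]; exact Cl.one i j
  mul_mem' := by
    rintro g h ⟨hg, z, h1, h2⟩ ⟨hh, w, h3, h4⟩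
    have hzw : ‖((z * w : kˣ) : k)‖ = ‖(z : k)‖ * ‖(w : k)‖ := by rw [Units.val_mul, norm_mul]
    refine ⟨(PP o).mul_mem hg hh, z * w, ?_, ?_⟩
    · rw [hzw]
      exact PP_block o hh (norm_nonneg _) (norm_nonneg _) h1 h3 hg
    · rw [hzw, _root_.mul_inv_rev, _root_.mul_inv_rev]
      exact PP_block o ((PP o).inv_mem hg) (inv_nonneg.2 (norm_nonneg _))
        (inv_nonneg.2 (norm_nonneg _)) h4 h2 ((PP o).inv_mem hh)
  inv_mem' := by
    rintro g ⟨hg, z, h1, h2⟩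
    refine ⟨(PP o).inv_mem hg, z⁻¹, ?_, ?_⟩
    · rw [Units.val_inv_eq_inv_val, norm_inv]; exact h2
    · rw [inv_inv, Units.val_inv_eq_inv_val, norm_inv, inv_inv]; exact h1

/-- The cone. -/
def Cone (T : ℝ) (C : Set (Matrix ι ι k)ˣ) : Set (Matrix ι ι k)ˣ :=
  {γ | ∃ c ∈ C, ∃ α : kˣ, T ≤ ‖(α : k)‖ ∧ ∃ κ ∈ KK k ι, ∃ z : kˣ,
    γ.1 = (z : k) • (c * dg o α * κ).1}

theorem cone_mono {T T' : ℝ} {C C' : Set (Matrix ι ι k)ˣ} (hT : T' ≤ T) (hC : C ⊆ C') :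
    Cone o T C ⊆ Cone o T' C' := by
  rintro γ ⟨c, hc, α, hα, κ, hκ, z, h⟩
  exact ⟨c, hC hc, α, hT.trans hα, κ, hκ, z, h⟩

theorem cone_union {T : ℝ} {C C' : Set (Matrix ι ι k)ˣ} :
    Cone o T (C ∪ C') = Cone o T C ∪ Cone o T C' := by
  ext γ
  constructor
  · rintro ⟨c, hc | hc, h⟩
    · exact Or.inl ⟨c, hc, h⟩
    · exact Or.inr ⟨c, hc, h⟩
  · rintro (⟨c, hc, h⟩ | ⟨c, hc, h⟩)
    · exact ⟨c, Or.inl hc, h⟩
    · exact ⟨c, Or.inr hc, h⟩

/-- exact equivariance -/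
theorem cone_smul {T : ℝ} {C : Set (Matrix ι ι k)ˣ} (s γ : (Matrix ι ι k)ˣ) :
    s * γ ∈ Cone o T ((fun x => s * x) '' C) ↔ γ ∈ Cone o T C := by
  constructor
  · rintro ⟨_, ⟨c, hc, rfl⟩, α, hα, κ, hκ, z, h⟩
    refine ⟨c, hc, α, hα, κ, hκ, z, ?_⟩
    have h1 : γ.1 = (s⁻¹).1 * (s * γ).1 := by
      rw [Units.val_mul, ← mul_assoc, Units.inv_mul, one_mul]
    rw [h1, h, Matrix.mul_smul, ← Units.val_mul]
    congr 2
    group
  · rintro ⟨c, hc, α, hα, κ, hκ, z, h⟩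
    refine ⟨_, ⟨c, hc, rfl⟩, α, hα, κ, hκ, z, ?_⟩
    rw [Units.val_mul, h, Matrix.mul_smul, ← Units.val_mul]
    congr 2
    group

/-- scalars do not matter -/
theorem cone_scalar {T : ℝ} {C : Set (Matrix ι ι k)ˣ} {γ γ' : (Matrix ι ι k)ˣ} {w : k}
    (h : γ'.1 = w • γ.1) (hw : w ≠ 0) (hγ : γ ∈ Cone o T C) : γ' ∈ Cone o T C := by
  obtain ⟨c, hc, α, hα, κ, hκ, z, h1⟩ := hγ
  refine ⟨c, hc, α, hα, κ, hκ, Units.mk0 w hw * z, ?_⟩
  rw [h, h1, smul_smul]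
  rfl

/-! ### Separation -/

theorem inv_of_smul {x y : (Matrix ι ι k)ˣ} {z : kˣ} (h : x.1 = (z : k) • y.1) :
    (x⁻¹).1 = ((z⁻¹ : kˣ) : k) • (y⁻¹).1 := by
  have h1 : x.1 * (((z⁻¹ : kˣ) : k) • (y⁻¹).1) = 1 := by
    rw [h, Matrix.mul_smul, Matrix.smul_mul, smul_smul, Units.mul_inv, Units.inv_mul, one_smul]
  calc (x⁻¹).1 = (x⁻¹).1 * (x.1 * (((z⁻¹ : kˣ) : k) • (y⁻¹).1)) := by rw [h1, mul_one]
    _ = _ := by rw [← mul_assoc, Units.inv_mul, one_mul]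

/-- the block of an invertible matrix is not small -/
theorem block_ge {a b : ι} (ha : a ≠ o) (hb : b ≠ o) (hab : a ≠ b) {C : ℝ} (hC : 1 ≤ C)
    {g : (Matrix ι ι k)ˣ} (hg : Bd C g) :
    ∃ i j, i ≠ o ∧ j ≠ o ∧ C⁻¹ ^ 3 / 2 ≤ ‖g.1 i j‖ := by
  by_contra hcon
  push Not at hcon
  have hC0 : 0 < C := by linarith
  have hs : ∀ i j, i ≠ o → ‖∑ l ∈ Finset.univ.erase o, g.1 i l * (g⁻¹).1 l j‖ ≤ C⁻¹ ^ 2 / 2 := by
    intro i j hi
    refine IsUltrametricDist.norm_sum_le_of_forall_le_of_nonneg (by positivity) fun l hl => ?_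
    have hl' : l ≠ o := Finset.ne_of_mem_erase hl
    rw [norm_mul]
    calc ‖g.1 i l‖ * ‖(g⁻¹).1 l j‖ ≤ (C⁻¹ ^ 3 / 2) * C :=
          mul_le_mul (hcon i l hi hl').le (hg.2 l j) (norm_nonneg _) (by positivity)
      _ = C⁻¹ ^ 2 / 2 := by field_simp
  have he : ∀ i j, (1 : Matrix ι ι k) i j = g.1 i o * (g⁻¹).1 o j +
      ∑ l ∈ Finset.univ.erase o, g.1 i l * (g⁻¹).1 l j := by
    intro i j
    rw [← Units.mul_inv g, Matrix.mul_apply]
    exact (Finset.add_sum_erase _ (fun l => g.1 i l * (g⁻¹).1 l j) (Finset.mem_univ o)).symm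
  have hlt : C⁻¹ ^ 2 / 2 < 1 := by
    have : C⁻¹ ≤ 1 := inv_le_one_of_one_le₀ hC
    have h0 : 0 < C⁻¹ := inv_pos.2 hC0
    nlinarith
  have hd : ∀ i, i ≠ o → 1 ≤ ‖g.1 i o‖ * ‖(g⁻¹).1 o i‖ := by
    intro i hi
    rw [← norm_mul]
    by_contra hlt'
    push Not at hlt'
    have h1 := he i i
    rw [Matrix.one_apply_eq] at h1
    have h2 : (1 : ℝ) ≤ max ‖g.1 i o * (g⁻¹).1 o i‖
        ‖∑ l ∈ Finset.univ.erase o, g.1 i l * (g⁻¹).1 l i‖ := by
      have h3 := IsUltrametricDist.norm_add_le_max (g.1 i o * (g⁻¹).1 o i)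
        (∑ l ∈ Finset.univ.erase o, g.1 i l * (g⁻¹).1 l i)
      rw [← h1, norm_one] at h3
      exact h3
    rcases le_max_iff.1 h2 with h3 | h3
    · linarith
    · linarith [hs i i hi]
  have h1 : C⁻¹ ≤ ‖g.1 a o‖ := by
    have h2 := hd a ha
    have h3 := hg.2 o a
    rw [inv_le_iff_one_le_mul₀ hC0]
    exact h2.trans (mul_le_mul_of_nonneg_left h3 (norm_nonneg _))
  have h2 : C⁻¹ ≤ ‖(g⁻¹).1 o b‖ := by
    have h2 := hd b hb
    have h3 := hg.1 b o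
    rw [inv_le_iff_one_le_mul₀ hC0, mul_comm]
    exact h2.trans (mul_le_mul_of_nonneg_right h3 (norm_nonneg _))
  have h3 := he a b
  rw [Matrix.one_apply_ne hab] at h3
  have h4 : ‖g.1 a o * (g⁻¹).1 o b‖ ≤ C⁻¹ ^ 2 / 2 := by
    rw [eq_neg_of_add_eq_zero_left h3.symm, norm_neg]
    exact hs a b ha
  rw [norm_mul] at h4
  have h5 : C⁻¹ * C⁻¹ ≤ ‖g.1 a o‖ * ‖(g⁻¹).1 o b‖ :=
    mul_le_mul h1 h2 (inv_nonneg.2 hC0.le) (norm_nonneg _)
  have h0 : 0 < C⁻¹ := inv_pos.2 hC0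
  nlinarith

/-- **Separation**: if `g` is bounded and `a_β⁻¹ g a_α` is integral up to scalars with `α` large,
then `g` is close to `Q`. -/
theorem sep {a b : ι} (ha : a ≠ o) (hb : b ≠ o) (hab : a ≠ b) {C r : ℝ} (hC : 1 ≤ C)
    (hr : 0 < r) : ∃ T : ℝ, 0 < T ∧ ∀ g : (Matrix ι ι k)ˣ, Bd C g → ∀ α β : kˣ, T ≤ ‖(α : k)‖ →
      ∀ z : kˣ, ∀ κ ∈ KK k ι, ((dg o β)⁻¹ * g * dg o α).1 = (z : k) • κ.1 →
      ∃ u ∈ cg k ι r hr.le, ∃ q ∈ QQ (k := k) o, g = u * q := by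
  have hC0 : 0 < C := by linarith
  set c : ℝ := C⁻¹ ^ 3 / 2 with hc
  have hc0 : 0 < c := by positivity
  set r' : ℝ := min r (min (1 / 2) (c / C)) with hr'
  have hr0 : 0 < r' := lt_min hr (lt_min (by norm_num) (by positivity))
  have hr1 : r' < 1 := lt_of_le_of_lt ((min_le_right _ _).trans (min_le_left _ _)) (by norm_num)
  have hrC : C * r' ≤ c := by
    have : r' ≤ c / C := (min_le_right _ _).trans (min_le_right _ _)
    rw [le_div_iff₀ hC0] at this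
    linarith
  refine ⟨C / (c * r'), by positivity, ?_⟩
  intro g hg α β hα z κ hκ he
  have hκ' := mem_KK.1 hκ
  have he' := inv_of_smul he
  have hz0 : 0 < ‖(z : k)‖ := norm_pos_iff.2 z.ne_zero
  have e1 : ∀ i j, i ≠ o → j ≠ o → ‖g.1 i j‖ ≤ ‖(z : k)‖ := by
    intro i j hi hj
    have h1 := congrFun (congrFun he i) j
    rw [conj_entry, if_neg hi, if_neg hj, one_mul, mul_one] at h1
    rw [h1, Matrix.smul_apply, smul_eq_mul, norm_mul]
    exact mul_le_of_le_one_right (norm_nonneg _) (hκ'.1 i j)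
  have hinv : ((dg o β)⁻¹ * g * dg o α)⁻¹ = (dg o α)⁻¹ * g⁻¹ * dg o β := by group
  rw [hinv] at he'
  have e2 : ∀ i j, i ≠ o → j ≠ o → ‖(g⁻¹).1 i j‖ ≤ ‖(z : k)‖⁻¹ := by
    intro i j hi hj
    have h1 := congrFun (congrFun he' i) j
    rw [conj_entry, if_neg hi, if_neg hj, one_mul, mul_one] at h1
    rw [h1, Matrix.smul_apply, smul_eq_mul, norm_mul, Units.val_inv_eq_inv_val, norm_inv]
    exact mul_le_of_le_one_right (inv_nonneg.2 (norm_nonneg _)) (hκ'.2 i j)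
  obtain ⟨i₀, j₀, hi₀, hj₀, hlow⟩ := block_ge o ha hb hab hC hg.inv
  have hz1 : c ≤ ‖(z : k)‖⁻¹ := hlow.trans (e2 i₀ j₀ hi₀ hj₀)
  have hz2 : ‖(z : k)‖ ≤ c⁻¹ := by
    have := inv_anti₀ hc0 hz1
    rwa [inv_inv] at this
  have hα0 : 0 < ‖(α : k)‖ := norm_pos_iff.2 α.ne_zero
  have e3 : ∀ i, i ≠ o → ‖g.1 i o‖ ≤ r' / C := by
    intro i hi
    have h1 := congrFun (congrFun he i) o
    rw [conj_entry, if_neg hi, if_pos rfl, one_mul] at h1
    have h2 : ‖g.1 i o‖ * ‖(α : k)‖ ≤ ‖(z : k)‖ := by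
      rw [← norm_mul, h1, Matrix.smul_apply, smul_eq_mul, norm_mul]
      exact mul_le_of_le_one_right (norm_nonneg _) (hκ'.1 i o)
    have h3 : ‖g.1 i o‖ * (C / (c * r')) ≤ c⁻¹ :=
      (mul_le_mul_of_nonneg_left hα (norm_nonneg _)).trans (h2.trans hz2)
    rw [le_div_iff₀ hC0]
    have h4 : ‖g.1 i o‖ * C ≤ c⁻¹ * (c * r') := by
      have := mul_le_mul_of_nonneg_right h3 (by positivity : (0 : ℝ) ≤ c * r')
      rwa [mul_assoc, div_mul_cancel₀ _ (by positivity : (c * r') ≠ 0)] at this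
    rwa [inv_mul_cancel_left₀ hc0.ne'] at h4
  set E : Matrix ι ι k := Matrix.of fun i j => if j = o ∧ i ≠ o then g.1 i o else 0 with hE
  have hEc : Cl E (r' / C) := by
    intro i j
    simp only [hE, Matrix.of_apply]
    split_ifs with h
    · exact e3 i h.2
    · rw [norm_zero]; positivity
  have hDc : Cl (-(E * (g⁻¹).1)) r' := by
    have := (hEc.mul hg.2).neg
    rwa [div_mul_cancel₀ _ hC0.ne'] at this
  obtain ⟨w, hw⟩ := cl_isUnit hr0.le hr1 hDc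
  have hwc : w ∈ cg k ι r' hr0.le := by
    rw [mem_cg hr0.le hr1, hw, add_sub_cancel_left]; exact hDc
  have hwr : w ∈ cg k ι r hr.le := cg_mono hr0.le hr.le (min_le_left _ _) hwc
  have hwg : (w * g).1 = g.1 - E := by
    rw [Units.val_mul, hw, add_mul, one_mul, neg_mul, mul_assoc, Units.inv_mul, mul_one]
    abel
  have hP : w * g ∈ PP (k := k) o := by
    intro i hi
    rw [hwg, Matrix.sub_apply]
    simp only [hE, Matrix.of_apply]
    rw [if_pos ⟨trivial, hi⟩, sub_self]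
  refine ⟨w⁻¹, (cg k ι r hr.le).inv_mem hwr, w * g, ⟨hP, z, ?_, ?_⟩, by group⟩
  · intro i j hi hj
    rw [hwg, Matrix.sub_apply]
    simp only [hE, Matrix.of_apply]
    rw [if_neg (fun h => hj h.1), sub_zero]
    exact e1 i j hi hj
  · intro i j hi hj
    have h1 : ((w * g)⁻¹).1 = (g⁻¹).1 + (g⁻¹).1 * ((w⁻¹).1 - 1) := by
      rw [_root_.mul_inv_rev, Units.val_mul, mul_sub, mul_one]; abel
    rw [h1, Matrix.add_apply]
    refine (IsUltrametricDist.norm_add_le_max _ _).trans (max_le (e2 i j hi hj) ?_)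
    exact ((hg.2.mul hwc.2.2) i j).trans (hrC.trans hz1)

/-- Two descriptions of the same element. -/
theorem two_desc {c c' κ κ' γ : (Matrix ι ι k)ˣ} {α β z z' : kˣ}
    (h : γ.1 = (z : k) • (c * dg o α * κ).1) (h' : γ.1 = (z' : k) • (c' * dg o β * κ').1) :
    ((dg o β)⁻¹ * (c'⁻¹ * c) * dg o α).1 = ((z⁻¹ * z' : kˣ) : k) • (κ' * κ⁻¹).1 := by
  have h1 : (c * dg o α * κ).1 = ((z⁻¹ * z' : kˣ) : k) • (c' * dg o β * κ').1 := by
    rw [Units.val_mul (z⁻¹) z', ← smul_smul, ← h', h, smul_smul, Units.inv_mul, one_smul]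
  have h2 : (dg o β)⁻¹ * (c'⁻¹ * c) * dg o α =
      ((dg o β)⁻¹ * c'⁻¹) * (c * dg o α * κ) * κ⁻¹ := by group
  rw [h2, Units.val_mul, Units.val_mul _ (c * dg o α * κ), h1, Matrix.mul_smul, Matrix.smul_mul,
    ← Units.val_mul, ← Units.val_mul]
  congr 2
  group

/-- **Cones over sets with disjoint images in `G/Q` are disjoint**, far out. -/
theorem cone_disj {a b : ι} (ha : a ≠ o) (hb : b ≠ o) (hab : a ≠ b) {B r : ℝ} (hB : 1 ≤ B)
    (hr : 0 < r) : ∃ T : ℝ, 0 < T ∧ ∀ C C' : Set (Matrix ι ι k)ˣ, (∀ c ∈ C, Bd B c) →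
      (∀ c ∈ C', Bd B c) → (∀ c ∈ C', ∀ u ∈ cg k ι r hr.le, c * u ∈ C') →
      (∀ c ∈ C, ∀ c' ∈ C', ∀ q ∈ QQ (k := k) o, c ≠ c' * q) →
      Disjoint (Cone o T C) (Cone o T C') := by
  obtain ⟨T, hT, h⟩ := sep (k := k) o ha hb hab (C := B * B) (by nlinarith) hr
  refine ⟨T, hT, fun C C' hC hC' hu hd => Set.disjoint_left.2 ?_⟩
  rintro γ ⟨c, hc, α, hα, κ, hκ, z, e⟩ ⟨c', hc', β, hβ, κ', hκ', z', e'⟩
  obtain ⟨u, hur, q, hq, he⟩ := h (c'⁻¹ * c) ((hC' c' hc').inv.mul (hC c hc)) α β hα (z⁻¹ * z')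
    (κ' * κ⁻¹) ((KK k ι).mul_mem hκ' ((KK k ι).inv_mem hκ)) (two_desc o e e')
  refine hd c hc (c' * u) (hu c' hc' u hur) q hq ?_
  rw [mul_assoc, ← he]
  group

theorem PP_oo {q : (Matrix ι ι k)ˣ} (hq : q ∈ PP (k := k) o) : (q⁻¹).1 o o * q.1 o o = 1 := by
  have h : ((q⁻¹).1 * q.1) o o = (q⁻¹).1 o o * q.1 o o := by
    rw [Matrix.mul_apply]
    refine Finset.sum_eq_single o (fun l _ hl => ?_) fun h => absurd (Finset.mem_univ o) h
    rw [(mem_PP o).1 hq l hl, mul_zero]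
  rw [← h, Units.inv_mul, Matrix.one_apply_eq]

/-- the scalar of an element of `Q` -/
theorem QQ_scalar {a : ι} (ha : a ≠ o) {B : ℝ} (hB : 1 ≤ B) {q : (Matrix ι ι k)ˣ}
    (hq : q ∈ PP (k := k) o) (hb : Bd B q) {z : kˣ}
    (h1 : ∀ i j, i ≠ o → j ≠ o → ‖q.1 i j‖ ≤ ‖(z : k)‖)
    (h2 : ∀ i j, i ≠ o → j ≠ o → ‖(q⁻¹).1 i j‖ ≤ ‖(z : k)‖⁻¹) : ‖(z : k)‖ ≤ B := by
  have hB0 : 0 < B := by linarith
  have hz0 : 0 < ‖(z : k)‖ := norm_pos_iff.2 z.ne_zero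
  by_contra hlt
  push Not at hlt
  have h3 : (1 : k) = ∑ l, q.1 a l * (q⁻¹).1 l a := by
    rw [← Matrix.mul_apply, Units.mul_inv, Matrix.one_apply_eq]
  have h4 : ‖∑ l, q.1 a l * (q⁻¹).1 l a‖ ≤ B * ‖(z : k)‖⁻¹ := by
    refine IsUltrametricDist.norm_sum_le_of_forall_le_of_nonneg (by positivity) fun l _ => ?_
    by_cases hl : l = o
    · rw [hl, (mem_PP o).1 hq a ha, zero_mul, norm_zero]; positivity
    · rw [norm_mul]
      exact mul_le_mul (hb.1 a l) (h2 l a hl ha) (norm_nonneg _) hB0.le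
  rw [← h3, norm_one] at h4
  have h5 : ‖(z : k)‖ ≤ B := by
    have := mul_le_mul_of_nonneg_right h4 hz0.le
    rwa [one_mul, mul_assoc, inv_mul_cancel₀ hz0.ne', mul_one] at this
  linarith

/-- `q a_α = a_β κ` up to scalars -/
theorem q_mul_dg {a : ι} (ha : a ≠ o) {B : ℝ} (hB : 1 ≤ B) {q : (Matrix ι ι k)ˣ}
    (hq : q ∈ QQ (k := k) o) (hb : Bd B q) {α : kˣ} (hα : B * B ≤ ‖(α : k)‖) :
    ∃ (β z : kˣ), ∃ κ ∈ KK k ι, ‖(α : k)‖ / (B * B) ≤ ‖(β : k)‖ ∧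
      (q * dg o α).1 = (z : k) • (dg o β * κ).1 := by
  obtain ⟨hP, z, h1, h2⟩ := hq
  have hB0 : 0 < B := by linarith
  have hz := QQ_scalar o ha hB hP hb h1 h2
  have hz0 : 0 < ‖(z : k)‖ := norm_pos_iff.2 z.ne_zero
  have hα0 : 0 < ‖(α : k)‖ := norm_pos_iff.2 α.ne_zero
  have hoo := PP_oo o hP
  have hne : q.1 o o ≠ 0 := right_ne_zero_of_mul_eq_one hoo
  have hinv : (q⁻¹).1 o o = (q.1 o o)⁻¹ := eq_inv_of_mul_eq_one_left hoo
  set t : kˣ := Units.mk0 (q.1 o o) hne with ht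
  have htv : (t : k) = q.1 o o := rfl
  have ht0 : 0 < ‖(t : k)‖ := norm_pos_iff.2 t.ne_zero
  have htB : B⁻¹ ≤ ‖(t : k)‖ := by
    have := hb.2 o o
    rw [hinv, norm_inv] at this
    rw [htv]
    exact (inv_le_comm₀ (norm_pos_iff.2 hne) hB0).1 this
  set β : kˣ := t * α * z⁻¹ with hβ
  have hβn : ‖(β : k)‖ = ‖(t : k)‖ * ‖(α : k)‖ * ‖(z : k)‖⁻¹ := by
    rw [hβ, Units.val_mul, Units.val_mul, norm_mul, norm_mul, Units.val_inv_eq_inv_val, norm_inv]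
  -- the scaled element
  obtain ⟨zz, hzz⟩ : ∃ y : (Matrix ι ι k)ˣ, y.1 = ((z⁻¹ : kˣ) : k) • (1 : Matrix ι ι k) ∧
      (y⁻¹).1 = (z : k) • (1 : Matrix ι ι k) :=
    ⟨⟨((z⁻¹ : kˣ) : k) • 1, (z : k) • 1,
      by rw [Matrix.smul_mul, Matrix.mul_smul, smul_smul, Units.inv_mul, one_smul, one_mul],
      by rw [Matrix.smul_mul, Matrix.mul_smul, smul_smul, Units.mul_inv, one_smul, one_mul]⟩,
      rfl, rfl⟩
  obtain ⟨κ, hκ⟩ : ∃ κ : (Matrix ι ι k)ˣ, κ = (dg o β)⁻¹ * q * dg o α * zz := ⟨_, rfl⟩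
  have hκv : κ.1 = ((z⁻¹ : kˣ) : k) • ((dg o β)⁻¹ * q * dg o α).1 := by
    rw [hκ, Units.val_mul _ zz, hzz.1, Matrix.mul_smul, mul_one]
  have hκi : (κ⁻¹).1 = (z : k) • ((dg o α)⁻¹ * q⁻¹ * dg o β).1 := by
    have : κ⁻¹ = zz⁻¹ * ((dg o α)⁻¹ * q⁻¹ * dg o β) := by rw [hκ]; group
    rw [this, Units.val_mul zz⁻¹, hzz.2, Matrix.smul_mul, one_mul]
  have hzi : ‖((z⁻¹ : kˣ) : k)‖ = ‖(z : k)‖⁻¹ := by rw [Units.val_inv_eq_inv_val, norm_inv]
  have hαi : ‖((α⁻¹ : kˣ) : k)‖ = ‖(α : k)‖⁻¹ := by rw [Units.val_inv_eq_inv_val, norm_inv]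
  have hβi : ‖((β⁻¹ : kˣ) : k)‖ = ‖(t : k)‖⁻¹ * ‖(α : k)‖⁻¹ * ‖(z : k)‖ := by
    rw [Units.val_inv_eq_inv_val, norm_inv, hβn, mul_inv, mul_inv, inv_inv]
  have hK : Bd 1 κ := by
    constructor
    · intro i j
      rw [hκv, Matrix.smul_apply, smul_eq_mul, norm_mul, conj_entry, norm_mul, norm_mul, hzi]
      by_cases hi : i = o
      · rw [if_pos hi, hβi]
        by_cases hj : j = o
        · rw [if_pos hj, hi, hj, ← htv]
          apply le_of_eq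
          field_simp
        · rw [if_neg hj, norm_one, mul_one, hi]
          have h3 : ‖q.1 o j‖ ≤ ‖(t : k)‖ * ‖(α : k)‖ := by
            calc ‖q.1 o j‖ ≤ B := hb.1 o j
              _ = B⁻¹ * (B * B) := by field_simp
              _ ≤ ‖(t : k)‖ * ‖(α : k)‖ := mul_le_mul htB hα (by positivity) ht0.le
          calc ‖(z : k)‖⁻¹ * (‖(t : k)‖⁻¹ * ‖(α : k)‖⁻¹ * ‖(z : k)‖ * ‖q.1 o j‖)
              = ‖q.1 o j‖ / (‖(t : k)‖ * ‖(α : k)‖) := by field_simp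
            _ ≤ 1 := div_le_one_of_le₀ h3 (by positivity)
      · rw [if_neg hi, norm_one, one_mul]
        by_cases hj : j = o
        · rw [hj, (mem_PP o).1 hP i hi, norm_zero, zero_mul, mul_zero]; exact zero_le_one
        · rw [if_neg hj, norm_one, mul_one]
          have := h1 i j hi hj
          rw [inv_mul_le_iff₀ hz0, mul_one]
          exact this
    · intro i j
      rw [hκi, Matrix.smul_apply, smul_eq_mul, norm_mul, conj_entry, norm_mul, norm_mul]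
      have hPi := (PP (k := k) o).inv_mem hP
      by_cases hi : i = o
      · rw [if_pos hi, hαi]
        by_cases hj : j = o
        · rw [if_pos hj, hi, hj, hinv, norm_inv, ← htv, hβn]
          apply le_of_eq
          field_simp
        · rw [if_neg hj, norm_one, mul_one, hi]
          calc ‖(z : k)‖ * (‖(α : k)‖⁻¹ * ‖(q⁻¹).1 o j‖) ≤ B * ((B * B)⁻¹ * B) := by
                refine mul_le_mul hz (mul_le_mul ?_ (hb.2 o j) (norm_nonneg _) (by positivity))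
                  (by positivity) hB0.le
                exact inv_anti₀ (by positivity) hα
            _ = 1 := by field_simp
      · rw [if_neg hi, norm_one, one_mul]
        by_cases hj : j = o
        · rw [hj, (mem_PP o).1 hPi i hi, norm_zero, zero_mul, mul_zero]; exact zero_le_one
        · rw [if_neg hj, norm_one, mul_one]
          have := h2 i j hi hj
          rw [← le_div_iff₀' hz0, one_div]
          exact this
  refine ⟨β, z, κ, mem_KK.2 hK, ?_, ?_⟩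
  · rw [hβn, div_le_iff₀ (by positivity)]
    calc ‖(α : k)‖ = B⁻¹ * ‖(α : k)‖ * B⁻¹ * (B * B) := by field_simp
      _ ≤ ‖(t : k)‖ * ‖(α : k)‖ * ‖(z : k)‖⁻¹ * (B * B) := by
          refine mul_le_mul_of_nonneg_right ?_ (by positivity)
          refine mul_le_mul (mul_le_mul_of_nonneg_right htB hα0.le) ?_ (by positivity)
            (by positivity)
          exact inv_anti₀ hz0 hz
  · have h3 : dg o β * κ = q * dg o α * zz := by rw [hκ]; group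
    rw [h3, Units.val_mul _ zz, hzz.1, Matrix.mul_smul, mul_one, smul_smul, Units.mul_inv,
      one_smul]

/-- **The cone over `C` depends only on `C Q`**, up to a change of `T`. -/
theorem cone_sub {a : ι} (ha : a ≠ o) {B : ℝ} (hB : 1 ≤ B) {C C' : Set (Matrix ι ι k)ˣ}
    (hC : ∀ c ∈ C, Bd B c) (hC' : ∀ c ∈ C', Bd B c)
    (hsub : ∀ c ∈ C, ∃ c' ∈ C', ∃ q ∈ QQ (k := k) o, c = c' * q) {T : ℝ} (hT : 1 ≤ T) :
    Cone o (B ^ 4 * T) C ⊆ Cone o T C' := by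
  rintro γ ⟨c, hc, α, hα, κ, hκ, z, e⟩
  obtain ⟨c', hc', q, hq, rfl⟩ := hsub c hc
  have hbq : Bd (B * B) q := by
    have : q = c'⁻¹ * (c' * q) := by group
    rw [this]
    exact (hC' c' hc').inv.mul (hC _ hc)
  have hB0 : 0 < B := by linarith
  have h1 : 1 ≤ B * B := by nlinarith
  obtain ⟨β, w, κ', hκ', hβ, he⟩ := q_mul_dg (k := k) o ha h1 hq hbq (α := α)
    (le_trans (by nlinarith [pow_pos hB0 4]) hα)
  refine ⟨c', hc', β, le_trans ?_ hβ, κ' * κ, (KK k ι).mul_mem hκ' hκ, z * w, ?_⟩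
  · rw [le_div_iff₀ (by positivity)]
    calc T * (B * B * (B * B)) = B ^ 4 * T := by ring
      _ ≤ _ := hα
  · have h3 : c' * q * dg o α * κ = c' * (q * dg o α) * κ := by group
    have h4 : c' * dg o β * (κ' * κ) = c' * (dg o β * κ') * κ := by group
    rw [e, h3, h4, Units.val_mul (c' * (q * dg o α)) κ, Units.val_mul c', he, Matrix.mul_smul,
      Matrix.smul_mul, smul_smul, ← Units.val_mul c', ← Units.val_mul _ κ]
    rfl

end cone

end Vale.Agent.P092.H575
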