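import Vale.Agent.P092.H575.Cone
import Vale.Agent.P092.H933.PGap

/-!
P092 (helper575), Team C, [C-CONE] part 2: covering, finiteness, right translations, gaps.
-/

set_option linter.all false

open Matrix Topology

namespace Vale.Agent.P092.H575

section general

variable {k : Type*} [NormedField k] [IsUltrametricDist k] {ι : Type*} [Fintype ι] [DecidableEq ι]
variable (o : ι)

theorem Bd.one_le [Nonempty ι] {C : ℝ} {g : (Matrix ι ι k)ˣ} (h : Bd C g) : 1 ≤ C := by
  obtain ⟨i⟩ := ‹Nonempty ι›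
  have h0 : 0 ≤ C := (norm_nonneg _).trans (h.1 i i)
  have h1 := (h.1.mul h.2) i i
  rw [Units.mul_inv, Matrix.one_apply_eq, norm_one] at h1
  nlinarith

theorem bd_one : Bd 1 (1 : (Matrix ι ι k)ˣ) := mem_KK.1 (KK k ι).one_mem

theorem bd_dg {α : kˣ} (h1 : 1 ≤ ‖(α : k)‖) : Bd ‖(α : k)‖ (dg (ι := ι) o α) := by
  have h0 : 0 < ‖(α : k)‖ := by linarith
  constructor
  · intro i j
    rw [dg_val, Matrix.diagonal_apply]
    split_ifs
    · exact le_rfl
    · rw [norm_one]; exact h1
    · rw [norm_zero]; exact h0.le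
  · intro i j
    rw [dg_inv_val, Matrix.diagonal_apply]
    split_ifs
    · rw [Units.val_inv_eq_inv_val, norm_inv]
      exact (inv_le_one_of_one_le₀ h1).trans h1
    · rw [norm_one]; exact h1
    · rw [norm_zero]; exact h0.le

/-- the elements of a cone which are not far out are bounded up to scalars -/
theorem cone_diff {B T T' : ℝ} (hT : 1 ≤ T) {C : Set (Matrix ι ι k)ˣ} (hC : ∀ c ∈ C, Bd B c)
    (hB : 0 ≤ B) {γ : (Matrix ι ι k)ˣ} (h : γ ∈ Cone o T C) (h' : γ ∉ Cone o T' C) :
    ∃ (z : kˣ) (g : (Matrix ι ι k)ˣ), Bd (B * T') g ∧ γ.1 = (z : k) • g.1 := by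
  obtain ⟨c, hc, α, hα, κ, hκ, z, e⟩ := h
  have h1 : ‖(α : k)‖ < T' := by
    by_contra hcon
    push Not at hcon
    exact h' ⟨c, hc, α, hcon, κ, hκ, z, e⟩
  refine ⟨z, c * dg o α * κ, ?_, e⟩
  have h2 := ((hC c hc).mul (bd_dg o (hT.trans hα))).mul (mem_KK.1 hκ)
  refine h2.mono ?_
  rw [mul_one]
  exact mul_le_mul_of_nonneg_left h1.le hB

/-- A vector with an entry of maximal norm is the `o`-th row of an integral matrix, up to a
scalar. -/
theorem exists_row (w : ι → k) (hw : w ≠ 0) : ∃ (κ : (Matrix ι ι k)ˣ) (t : kˣ), κ ∈ KK k ι ∧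
    ∀ j, w j = (t : k) * κ.1 o j := by
  haveI : Nonempty ι := ⟨o⟩
  obtain ⟨j₀, hj₀⟩ := Finite.exists_max fun j => ‖w j‖
  have hne : w j₀ ≠ 0 := by
    intro h0
    apply hw
    funext j
    have := hj₀ j
    rw [h0, norm_zero] at this
    exact norm_le_zero_iff.1 this
  -- the permutation matrix swapping `o` and `j₀`, times a unipotent
  set v : ι → k := fun j => w j / w j₀ with hv
  have hv1 : ∀ j, ‖v j‖ ≤ 1 := fun j => by
    rw [hv]
    simp only [norm_div]
    exact div_le_one_of_le₀ (hj₀ j) (norm_nonneg _)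
  have hvj : v j₀ = 1 := div_self hne
  -- rows: `e_j₀`-row replaced by `v`
  set M : Matrix ι ι k := Matrix.of fun i j => if i = j₀ then v j else if i = j then 1 else 0
    with hM
  set N : Matrix ι ι k := Matrix.of fun i j => if i = j₀ then (if j = j₀ then 1 else -v j)
    else if i = j then 1 else 0 with hN
  have hMN : M * N = 1 := by
    ext i j
    rw [Matrix.mul_apply, Matrix.one_apply]
    by_cases hi : i = j₀
    · rw [← Finset.add_sum_erase Finset.univ (fun l => M i l * N l j) (Finset.mem_univ j₀)]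
      simp only [hM, hN, Matrix.of_apply, hi, if_true]
      rw [hvj, one_mul]
      have h1 : ∑ l ∈ Finset.univ.erase j₀, v l * (if l = j₀ then (if j = j₀ then (1 : k) else -v j)
          else if l = j then (1 : k) else 0) = (if j = j₀ then (0 : k) else v j) := by
        by_cases hj : j = j₀
        · have h2 : (if j = j₀ then (0 : k) else v j) = 0 := if_pos hj
          rw [h2]
          refine Finset.sum_eq_zero fun l hl => ?_
          have hl' := Finset.ne_of_mem_erase hl
          rw [if_neg hl', if_neg (fun h => hl' (h.trans hj)), mul_zero]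
        · have h2 : (if j = j₀ then (0 : k) else v j) = v j := if_neg hj
          rw [h2, Finset.sum_eq_single j]
          · rw [if_neg hj, if_pos rfl, mul_one]
          · intro l hl hlj
            rw [if_neg (Finset.ne_of_mem_erase hl), if_neg hlj, mul_zero]
          · intro h
            exact absurd (Finset.mem_erase.2 ⟨hj, Finset.mem_univ j⟩) h
      rw [h1]
      by_cases hj : j = j₀
      · rw [if_pos hj, if_pos hj, if_pos hj.symm, add_zero]
      · rw [if_neg hj, if_neg hj, if_neg (fun h => hj h.symm), neg_add_cancel]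
    · simp only [hM, hN, Matrix.of_apply, hi, if_false, ite_mul, one_mul, zero_mul]
      rw [Finset.sum_ite_eq Finset.univ i, if_pos (Finset.mem_univ i)]
      simp only [if_neg hi]
  have hNM : N * M = 1 := mul_eq_one_comm.1 hMN
  have hMc : Cl M 1 := by
    intro i j
    simp only [hM, Matrix.of_apply]
    split_ifs
    · exact hv1 j
    · rw [norm_one]
    · rw [norm_zero]; exact zero_le_one
  have hNc : Cl N 1 := by
    intro i j
    simp only [hN, Matrix.of_apply]
    split_ifs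
    · rw [norm_one]
    · rw [norm_neg]; exact hv1 j
    · rw [norm_one]
    · rw [norm_zero]; exact zero_le_one
  -- the swap
  set S : Matrix ι ι k := Matrix.of fun i j => if Equiv.swap o j₀ i = j then 1 else 0 with hS
  have hSc : Cl S 1 := by
    intro i j
    simp only [hS, Matrix.of_apply]
    split_ifs
    · rw [norm_one]
    · rw [norm_zero]; exact zero_le_one
  have hSS : S * S = 1 := by
    ext i j
    rw [Matrix.mul_apply, Matrix.one_apply]
    simp only [hS, Matrix.of_apply, ite_mul, one_mul, zero_mul]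
    rw [Finset.sum_ite_eq Finset.univ, if_pos (Finset.mem_univ _), Equiv.swap_apply_self]
  refine ⟨⟨S * M, N * S, ?_, ?_⟩, Units.mk0 (w j₀) hne, mem_KK.2 ⟨?_, ?_⟩, fun j => ?_⟩
  · rw [mul_assoc, ← mul_assoc M, hMN, one_mul, hSS]
  · rw [mul_assoc, ← mul_assoc S, hSS, one_mul, hNM]
  · have := hSc.mul hMc; rwa [mul_one] at this
  · have := hNc.mul hSc; rwa [mul_one] at this
  · have h1 : (S * M) o j = v j := by
      rw [Matrix.mul_apply]
      simp only [hS, Matrix.of_apply, ite_mul, one_mul, zero_mul]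
      rw [Finset.sum_ite_eq Finset.univ, if_pos (Finset.mem_univ _), Equiv.swap_apply_left]
      simp only [hM, Matrix.of_apply, if_true]
    show w j = w j₀ * (S * M) o j
    rw [h1, hv]
    field_simp

/-- Iwasawa decomposition with respect to the opposite parabolic. -/
theorem iwasawa (g : (Matrix ι ι k)ˣ) : ∃ κ ∈ KK k ι, ∀ j, j ≠ o → (g * κ⁻¹).1 o j = 0 := by
  have hne : (fun j => g.1 o j) ≠ 0 := by
    intro h0
    have h1 : (g.1 * (g⁻¹).1) o o = 0 := by
      rw [Matrix.mul_apply]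
      refine Finset.sum_eq_zero fun l _ => ?_
      rw [show g.1 o l = 0 from congrFun h0 l, zero_mul]
    rw [Units.mul_inv, Matrix.one_apply_eq] at h1
    exact one_ne_zero h1
  obtain ⟨κ, t, hκ, ht⟩ := exists_row o (fun j => g.1 o j) hne
  refine ⟨κ, hκ, fun j hj => ?_⟩
  rw [Units.val_mul, Matrix.mul_apply]
  have h1 : ∑ l, g.1 o l * (κ⁻¹).1 l j = (t : k) * ∑ l, κ.1 o l * (κ⁻¹).1 l j := by
    rw [Finset.mul_sum]
    refine Finset.sum_congr rfl fun l _ => ?_
    rw [show g.1 o l = _ from ht l, mul_assoc]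
  rw [h1, ← Matrix.mul_apply, Units.mul_inv, Matrix.one_apply_ne (Ne.symm hj), mul_zero]

/-- the Levi part of a matrix -/
def lev (A : Matrix ι ι k) : Matrix ι ι k := Matrix.of fun i j => if i = o ↔ j = o then A i j else 0

theorem lev_one : lev o (1 : Matrix ι ι k) = 1 := by
  ext i j
  simp only [lev, Matrix.of_apply]
  split_ifs with h
  · rfl
  · rw [Matrix.one_apply_ne]
    rintro rfl
    exact h Iff.rfl

theorem lev_mul {A B : Matrix ι ι k} (hA : ∀ j, j ≠ o → A o j = 0) (hB : ∀ j, j ≠ o → B o j = 0) :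
    lev o A * lev o B = lev o (A * B) := by
  ext i j
  simp only [lev, Matrix.of_apply, Matrix.mul_apply]
  by_cases hi : i = o
  · by_cases hj : j = o
    · rw [if_pos (iff_of_true hi hj)]
      refine Finset.sum_congr rfl fun l _ => ?_
      by_cases hl : l = o
      · rw [if_pos (iff_of_true hi hl), if_pos (iff_of_true hl hj)]
      · rw [if_neg (fun h => hl (h.1 hi)), hi, hA l hl, zero_mul, zero_mul]
    · rw [if_neg (fun h => hj (h.1 hi))]
      refine Finset.sum_eq_zero fun l _ => ?_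
      by_cases hl : l = o
      · rw [if_neg (c := l = o ↔ j = o) (fun h => hj (h.1 hl)), mul_zero]
      · rw [if_neg (c := i = o ↔ l = o) (fun h => hl (h.1 hi)), zero_mul]
  · by_cases hj : j = o
    · rw [if_neg (c := i = o ↔ j = o) (fun h => hi (h.2 hj))]
      refine Finset.sum_eq_zero fun l _ => ?_
      by_cases hl : l = o
      · rw [if_neg (c := i = o ↔ l = o) (fun h => hi (h.2 hl)), zero_mul]
      · rw [if_neg (c := l = o ↔ j = o) (fun h => hl (h.2 hj)), mul_zero]
    · rw [if_pos (c := i = o ↔ j = o) (iff_of_false hi hj)]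
      refine Finset.sum_congr rfl fun l _ => ?_
      by_cases hl : l = o
      · rw [if_neg (c := i = o ↔ l = o) (fun h => hi (h.2 hl)), zero_mul, hl, hB j hj, mul_zero]
      · rw [if_pos (c := i = o ↔ l = o) (iff_of_false hi hl),
          if_pos (c := l = o ↔ j = o) (iff_of_false hl hj)]

theorem cl_lev {A : Matrix ι ι k} {r : ℝ} (h : Cl A r) : Cl (lev o A) r := by
  intro i j
  simp only [lev, Matrix.of_apply]
  split_ifs
  · exact h i j
  · rw [norm_zero]; exact (norm_nonneg _).trans (h i j)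

/-- the inverse of an element of the opposite parabolic -/
theorem opp_inv {p : (Matrix ι ι k)ˣ} (hp : ∀ j, j ≠ o → p.1 o j = 0) :
    ∀ j, j ≠ o → (p⁻¹).1 o j = 0 := by
  have key : ∀ j, (p.1 * (p⁻¹).1) o j = p.1 o o * (p⁻¹).1 o j := by
    intro j
    rw [Matrix.mul_apply]
    refine Finset.sum_eq_single o (fun l _ hl => ?_) fun h => absurd (Finset.mem_univ o) h
    rw [hp l hl, zero_mul]
  have h1 : p.1 o o ≠ 0 := by
    intro h0
    have := key o
    rw [Units.mul_inv, Matrix.one_apply_eq, h0, zero_mul] at this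
    exact one_ne_zero this
  intro j hj
  have h2 := key j
  rw [Units.mul_inv, Matrix.one_apply_ne (Ne.symm hj)] at h2
  exact (mul_eq_zero.1 h2.symm).resolve_left h1

/-- the Levi part of an element of the opposite parabolic -/
theorem exists_lev {p : (Matrix ι ι k)ˣ} (hp : ∀ j, j ≠ o → p.1 o j = 0) :
    ∃ l : (Matrix ι ι k)ˣ, l.1 = lev o p.1 ∧ (l⁻¹).1 = lev o (p⁻¹).1 :=
  ⟨⟨lev o p.1, lev o (p⁻¹).1,
    by rw [lev_mul o hp (opp_inv o hp), Units.mul_inv, lev_one],
    by rw [lev_mul o (opp_inv o hp) hp, Units.inv_mul, lev_one]⟩, rfl, rfl⟩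

/-- **Right translations**: far out, the right translation of a cone element by a bounded element
changes its base only by a bounded Levi factor, up to a small error. -/
theorem right_mul {S r : ℝ} (hS : 1 ≤ S) (hr : 0 < r) : ∃ T : ℝ, 0 < T ∧
    ∀ s κ : (Matrix ι ι k)ˣ, Bd S s → κ ∈ KK k ι → ∀ α : kˣ, T ≤ ‖(α : k)‖ →
    ∃ l : (Matrix ι ι k)ˣ, Bd S l ∧ lev o l.1 = l.1 ∧ ∃ u ∈ cg k ι r hr.le, ∃ κ' ∈ KK k ι,
      dg o α * κ * s = l * u * dg o α * κ' := by
  have hS0 : 0 < S := by linarith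
  set r' : ℝ := min r (1 / 2) with hr'
  have hr0 : 0 < r' := lt_min hr (by norm_num)
  have hr1 : r' < 1 := lt_of_le_of_lt (min_le_right _ _) (by norm_num)
  refine ⟨S * S / r', by positivity, ?_⟩
  intro s κ hs hκ α hα
  have hα0 : 0 < ‖(α : k)‖ := norm_pos_iff.2 α.ne_zero
  have hg : Bd S (κ * s) := by
    have := (mem_KK.1 hκ).mul hs
    rwa [one_mul] at this
  obtain ⟨κ', hκ', hp⟩ := iwasawa o (κ * s)
  obtain ⟨p, hpe⟩ : ∃ p, p = κ * s * κ'⁻¹ := ⟨_, rfl⟩
  rw [← hpe] at hp
  have hpB : Bd S p := by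
    have := hg.mul (mem_KK.1 ((KK k ι).inv_mem hκ'))
    rw [mul_one] at this
    rw [hpe]; exact this
  obtain ⟨l, hl, hli⟩ := exists_lev o hp
  have hlB : Bd S l := ⟨by rw [hl]; exact cl_lev o hpB.1, by rw [hli]; exact cl_lev o hpB.2⟩
  have hll : lev o l.1 = l.1 := by
    rw [hl]
    ext i j
    simp only [lev, Matrix.of_apply]
    split_ifs <;> rfl
  -- the conjugate
  obtain ⟨y, hy⟩ : ∃ y, y = dg o α * p * (dg o α)⁻¹ := ⟨_, rfl⟩
  have hyl : Cl (y.1 - l.1) (S / ‖(α : k)‖) := by
    intro i j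
    have h1 : dg (ι := ι) o α = (dg o α⁻¹)⁻¹ := by
      refine eq_inv_of_mul_eq_one_left ?_
      rw [dg_mul, mul_inv_cancel]
      ext i j
      rw [dg_val, Units.val_one, Units.val_one, ← diagonal_one]
      congr 2
      funext i
      split_ifs <;> rfl
    have h2 : y = (dg o α⁻¹)⁻¹ * p * dg o α⁻¹ := by
      rw [hy, ← h1]
      congr 1
    rw [Matrix.sub_apply, h2, conj_entry, inv_inv, hl]
    simp only [lev, Matrix.of_apply]
    by_cases hi : i = o
    · by_cases hj : j = o
      · rw [if_pos hi, if_pos hj, if_pos (iff_of_true hi hj)]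
        have : (α : k) * p.1 i j * ((α⁻¹ : kˣ) : k) = p.1 i j := by
          rw [mul_comm (α : k), mul_assoc, Units.mul_inv, mul_one]
        rw [this, sub_self, norm_zero]
        positivity
      · rw [if_neg (c := i = o ↔ j = o) (fun h => hj (h.1 hi)), hi, hp j hj]
        simp only [mul_zero, zero_mul, sub_zero, norm_zero]
        positivity
    · by_cases hj : j = o
      · rw [if_neg hi, if_pos hj, if_neg (c := i = o ↔ j = o) (fun h => hi (h.2 hj)), one_mul,
          sub_zero, norm_mul, Units.val_inv_eq_inv_val, norm_inv, div_eq_mul_inv]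
        exact mul_le_mul_of_nonneg_right (hpB.1 i j) (inv_nonneg.2 hα0.le)
      · rw [if_neg hi, if_neg hj, if_pos (iff_of_false hi hj), one_mul, mul_one, sub_self,
          norm_zero]
        positivity
  have hu : Cl ((l⁻¹ * y).1 - 1) r' := by
    have h1 : (l⁻¹ * y).1 - 1 = (l⁻¹).1 * (y.1 - l.1) := by
      rw [mul_sub, Units.inv_mul, Units.val_mul]
    rw [h1]
    refine (hlB.2.mul hyl).mono ?_
    rw [← mul_div_assoc, div_le_iff₀ hα0]
    rw [div_le_iff₀ hr0] at hα
    linarith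
  refine ⟨l, hlB, hll, l⁻¹ * y, ?_, κ', hκ', ?_⟩
  · exact cg_mono hr0.le hr.le (min_le_left _ _) ((mem_cg hr0.le hr1).2 hu)
  · rw [hy, hpe]; group

/-- right translation of cones -/
theorem cone_right {S r : ℝ} (hS : 1 ≤ S) (hr : 0 < r) : ∃ T₀ : ℝ, 0 < T₀ ∧
    ∀ s : (Matrix ι ι k)ˣ, Bd S s → ∀ (C : Set (Matrix ι ι k)ˣ) (T : ℝ), T₀ ≤ T →
    ∀ γ ∈ Cone o T C, γ * s ∈ Cone o T {x | ∃ c ∈ C, ∃ l : (Matrix ι ι k)ˣ, Bd S l ∧
      lev o l.1 = l.1 ∧ ∃ u ∈ cg k ι r hr.le, x = c * l * u} := by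
  obtain ⟨T₀, hT₀, h⟩ := right_mul (k := k) o hS hr
  refine ⟨T₀, hT₀, ?_⟩
  rintro s hs C T hT γ ⟨c, hc, α, hα, κ, hκ, z, e⟩
  obtain ⟨l, hl, hll, u, hu, κ', hκ', he⟩ := h s κ hs hκ α (hT.trans hα)
  refine ⟨c * l * u, ⟨c, hc, l, hl, hll, u, hu, rfl⟩, α, hα, κ', hκ', z, ?_⟩
  have h1 : c * l * u * dg o α * κ' = (c * dg o α * κ) * s := by
    calc c * l * u * dg o α * κ' = c * (l * u * dg o α * κ') := by group
      _ = _ := by rw [← he]; group
  rw [Units.val_mul, e, Matrix.smul_mul, ← Units.val_mul, h1]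

end general

/-! ### Covering by cones -/

section cover

open Vale.Agent.P092.H933

variable {k : Type*} [NormedField k] [IsUltrametricDist k] {n : ℕ}

/-- The cone form of an element whose singular values except the first one are comparable. -/
theorem exists_cone (hn : 1 < n) {R : ℝ} (hR : 1 ≤ R) (γ : (Matrix (Fin n) (Fin n) k)ˣ)
    (h1 : ∀ i : Fin n, sv γ.1 ⟨1, hn⟩ ≤ R * sv γ.1 i) :
    ∃ (c : (Matrix (Fin n) (Fin n) k)ˣ) (α : kˣ) (κ : (Matrix (Fin n) (Fin n) k)ˣ) (z : kˣ),
      Bd R c ∧ (∀ i, c.1 i ⟨0, by omega⟩ = (car γ.1).u i ⟨0, by omega⟩) ∧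
      ‖(α : k)‖ = sv γ.1 ⟨0, by omega⟩ / sv γ.1 ⟨1, hn⟩ ∧ κ ∈ KK k (Fin n) ∧
      γ.1 = (z : k) • (c * dg (⟨0, by omega⟩ : Fin n) α * κ).1 := by
  have hdet : γ.1.det ≠ 0 := (Matrix.isUnits_det_units γ).ne_zero
  obtain ⟨a, ha⟩ : ∃ a : Fin n → kˣ, ∀ i, (a i : k) = (car γ.1).a i :=
    ⟨fun i => Units.mk0 _ (a_ne hdet i), fun i => rfl⟩
  have hsv : ∀ i, sv γ.1 i = ‖(a i : k)‖ := fun i => by rw [ha]; rfl
  set o : Fin n := ⟨0, by omega⟩ with ho
  set e : Fin n := ⟨1, hn⟩ with he
  set κ : (Matrix (Fin n) (Fin n) k)ˣ := ⟨(car γ.1).v, (car γ.1).vi, (car γ.1).hv.mul,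
    (car γ.1).hv.mul'⟩ with hκ
  have hκK : κ ∈ KK k (Fin n) := mem_KK.2 ⟨(car γ.1).hv.le, (car γ.1).hv.lei⟩
  set d : Fin n → kˣ := fun i => if i = o then 1 else a i * (a e)⁻¹ with hd
  set D : (Matrix (Fin n) (Fin n) k)ˣ := ⟨diagonal fun i => (d i : k),
    diagonal fun i => ((d i)⁻¹ : kˣ), by
      rw [diagonal_mul_diagonal, ← diagonal_one]; congr 1; funext i; simp, by
      rw [diagonal_mul_diagonal, ← diagonal_one]; congr 1; funext i; simp⟩ with hD
  set U : (Matrix (Fin n) (Fin n) k)ˣ := ⟨(car γ.1).u, (car γ.1).ui, (car γ.1).hu.mul,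
    (car γ.1).hu.mul'⟩ with hU
  have hUK : Bd 1 U := ⟨(car γ.1).hu.le, (car γ.1).hu.lei⟩
  have hae : 0 < ‖(a e : k)‖ := norm_pos_iff.2 (a e).ne_zero
  have hDB : Bd R D := by
    constructor
    · intro i j
      show ‖(diagonal fun i => (d i : k)) i j‖ ≤ R
      rw [Matrix.diagonal_apply]
      split_ifs with h
      · simp only [hd]
        split_ifs with hi
        · rw [Units.val_one, norm_one]; exact hR
        · rw [Units.val_mul, norm_mul, Units.val_inv_eq_inv_val, norm_inv, ← div_eq_mul_inv,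
            div_le_iff₀ hae]
          have h3 : sv γ.1 i ≤ sv γ.1 e := by
            refine sv_anti γ.1 (Fin.le_def.2 ?_)
            have : (i : ℕ) ≠ 0 := fun h => hi (Fin.ext h)
            show 1 ≤ (i : ℕ)
            omega
          rw [hsv, hsv] at h3
          nlinarith
      · rw [norm_zero]; linarith
    · intro i j
      show ‖(diagonal fun i => (((d i)⁻¹ : kˣ) : k)) i j‖ ≤ R
      rw [Matrix.diagonal_apply]
      split_ifs with h
      · simp only [hd]
        split_ifs with hi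
        · rw [inv_one, Units.val_one, norm_one]; exact hR
        · have hai : 0 < ‖(a i : k)‖ := norm_pos_iff.2 (a i).ne_zero
          rw [Units.val_inv_eq_inv_val, norm_inv, Units.val_mul, norm_mul,
            Units.val_inv_eq_inv_val, norm_inv, mul_inv, inv_inv, mul_comm, ← div_eq_mul_inv,
            div_le_iff₀ hai]
          have h3 := h1 i
          rw [hsv, hsv] at h3
          exact h3
      · rw [norm_zero]; linarith
  refine ⟨U * D, a o * (a e)⁻¹, κ, a e, ?_, fun i => ?_, ?_, hκK, ?_⟩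
  · have := hUK.mul hDB
    rwa [one_mul] at this
  · show (U * D).1 i o = U.1 i o
    have h5 : d o = 1 := if_pos rfl
    rw [Units.val_mul]
    show (U.1 * diagonal fun i => (d i : k)) i o = U.1 i o
    rw [Matrix.mul_diagonal, h5, Units.val_one, mul_one]
  · rw [Units.val_mul, norm_mul, Units.val_inv_eq_inv_val, norm_inv, ← div_eq_mul_inv, hsv, hsv]
  · have h3 : γ.1 = (car γ.1).u * diagonal (car γ.1).a * (car γ.1).v := (car γ.1).eq
    conv_lhs => rw [h3]
    have h4 : diagonal (car γ.1).a = (a e : k) • ((diagonal fun i => (d i : k)) *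
        diagonal fun i => if i = o then ((a o * (a e)⁻¹ : kˣ) : k) else 1) := by
      rw [diagonal_mul_diagonal, ← diagonal_smul]
      congr 1
      funext i
      rw [Pi.smul_apply, smul_eq_mul, ← ha]
      by_cases hi : i = o
      · subst hi
        have h5 : d o = 1 := if_pos rfl
        rw [h5, if_pos rfl, Units.val_one, one_mul, Units.val_mul, mul_comm (a o : k), ← mul_assoc,
          Units.mul_inv, one_mul]
      · simp only [hd, if_neg hi, mul_one, Units.val_mul]
        rw [mul_comm (a i : k), ← mul_assoc, Units.mul_inv, one_mul]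
    rw [h4, Matrix.mul_smul, Matrix.smul_mul]
    congr 1
    simp only [Units.val_mul, dg_val, hU, hD, hκ, mul_assoc]

/-- **Covering**: an element whose first gap is at least `T` and whose other singular values are
comparable is in the cone over a bounded set. -/
theorem mem_cone (hn : 1 < n) {R T : ℝ} (hR : 1 ≤ R) (γ : (Matrix (Fin n) (Fin n) k)ˣ)
    (h1 : ∀ i : Fin n, sv γ.1 ⟨1, hn⟩ ≤ R * sv γ.1 i)
    (h2 : T * sv γ.1 ⟨1, hn⟩ ≤ sv γ.1 ⟨0, by omega⟩) :
    γ ∈ Cone (⟨0, by omega⟩ : Fin n) T {g | Bd R g} := by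
  have hdet : γ.1.det ≠ 0 := (Matrix.isUnits_det_units γ).ne_zero
  obtain ⟨c, α, κ, z, hc, -, hα, hκ, he⟩ := exists_cone hn hR γ h1
  refine ⟨c, hc, α, ?_, κ, hκ, z, he⟩
  rw [hα, le_div_iff₀ (sv_pos hdet _)]
  exact h2

end cover

end Vale.Agent.P092.H575
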