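import Vale.Agent.P092.H575.GeoSD
import Vale.Agent.P092.H142.Asm

/-!
P092 (helper575), D-ULTRA: the geometric inputs of the half leg (letters of H142/Asm) over a
nonarchimedean local field: `DomCut` for points and lines, finite balls for discrete subgroups.
-/

set_option linter.all false

open Matrix Topology TopologicalSpace
open scoped LinearAlgebra.Projectivization

namespace Vale.Agent.P092.H575

open Vale.Agent.P092.H933 Vale.Agent.P092.H820
open Vale.Agent.P092.SD (G3 nm NW tau pt)

section dom

variable {k : Type} [NontriviallyNormedField k] [IsUltrametricDist k] {Γ : Type} [Group Γ]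
  (q : Γ →* G3 k)

theorem domCut_pt [ProperSpace k] :
    H142.DomCut q (fun γ => gap 0 (q γ).1) (fun γ => gap 1 (q γ).1) (fun γ => bpU (q γ)) :=
  cone_sub_pt q

theorem domCut_ln [ProperSpace k] :
    H142.DomCut ((tau k).comp q) (fun γ => gap 1 (q γ).1) (fun γ => gap 0 (q γ).1)
      (fun γ => bpU (tau k (q γ))) :=
  cone_sub_ln q

/-- exact exchange of the gaps under inversion -/
theorem gap0_inv' (h : G3 k) : gap 0 (h⁻¹).1 = gap 1 h.1 := by
  rw [← g1_eq_gap (by norm_num), ← g2_eq_gap]
  exact g1_inv' h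

theorem gap1_inv' (h : G3 k) : gap 1 (h⁻¹).1 = gap 0 h.1 := by
  rw [← g1_eq_gap (by norm_num), ← g2_eq_gap]
  exact g2_inv' h

end dom

section disc

variable {k : Type} [NontriviallyNormedField k] [ProperSpace k]

theorem isCompact_slk {n : ℕ} (C : ℝ) :
    IsCompact {M : SpecialLinearGroup (Fin n) k | ∀ i j, ‖M.1 i j‖ ≤ C} := by
  have h1 : IsCompact {M : Matrix (Fin n) (Fin n) k | ∀ i j, ‖M i j‖ ≤ C} := by
    have h2 : {M : Matrix (Fin n) (Fin n) k | ∀ i j, ‖M i j‖ ≤ C} =
        Set.pi Set.univ fun _ : Fin n => Set.pi Set.univ fun _ : Fin n =>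
          Metric.closedBall (0 : k) C := by
      ext M
      constructor
      · intro h i _ j _
        exact mem_closedBall_zero_iff.2 (h i j)
      · intro h i j
        exact mem_closedBall_zero_iff.1 (h i (Set.mem_univ i) j (Set.mem_univ j))
    rw [h2]
    exact isCompact_univ_pi fun _ => isCompact_univ_pi fun _ => isCompact_closedBall _ _
  exact Matrix.SpecialLinearGroup.isClosedEmbedding_val.isCompact_preimage h1

/-- finite balls for a discrete subgroup, any local field -/
theorem disc_sub (Γ : Subgroup (G3 k)) [DiscreteTopology Γ] (C : ℝ) :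
    {γ : Γ | nm (Γ.subtype γ) ≤ C}.Finite := by
  have hcl : IsClosed (Γ : Set (G3 k)) := Subgroup.isClosed_of_discrete
  have hK := (isCompact_slk (k := k) (n := 3) C).inter_right hcl
  have hfin : ({M : SpecialLinearGroup (Fin 3) k | ∀ i j, ‖M.1 i j‖ ≤ C} ∩
      (Γ : Set (G3 k))).Finite := by
    refine hK.finite (isDiscrete_iff_discreteTopology.2 ?_)
    exact DiscreteTopology.of_subset (s := (Γ : Set (G3 k))) inferInstance
      Set.inter_subset_right
  refine (hfin.preimage (Subtype.val_injective.injOn (s := Subtype.val ⁻¹' _))).subset ?_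
  intro γ hγ
  refine ⟨fun i j => ?_, γ.2⟩
  have h1 : ‖(fun i j => γ.1.1 i j : Fin 3 → Fin 3 → k)‖ ≤ C := hγ
  exact ((norm_le_pi_norm (fun j => γ.1.1 i j) j).trans
    (norm_le_pi_norm (fun i j => γ.1.1 i j : Fin 3 → Fin 3 → k) i)).trans h1

/-- the same for the inverse transpose -/
theorem disc_sub_tau (Γ : Subgroup (G3 k)) [DiscreteTopology Γ] [IsUltrametricDist k] (C : ℝ) :
    {γ : Γ | nm (((tau k).comp Γ.subtype) γ) ≤ C}.Finite :=
  disc_tau Γ.subtype (disc_sub Γ) C

theorem inj_sub (Γ : Subgroup (G3 k)) : Function.Injective Γ.subtype := Subtype.val_injective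

theorem inj_sub_tau (Γ : Subgroup (G3 k)) [IsUltrametricDist k] :
    Function.Injective ((tau k).comp Γ.subtype) :=
  inj_tau Γ.subtype (inj_sub Γ)

end disc

end Vale.Agent.P092.H575
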