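import Vale.Agent.P092.H575.Cone2
import Vale.Agent.P092.H820.Pn

/-!
P092 (helper575), Team C: the geometry of the wall limit over a non-archimedean local field:
attracting points in the projective space, their stability, and the separation of cones over
disjoint clopen sets.
-/

set_option linter.all false

open Matrix Topology
open scoped LinearAlgebra.Projectivization

namespace Vale.Agent.P092.H575

open Vale.Agent.P092.H933 Vale.Agent.P092.H820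

/-! ### Uniform local constancy of clopen sets -/

section ucl

variable {k : Type*} [NormedField k] [ProperSpace k] {ι : Type*} [Fintype ι]

theorem ucl {A : Set (ℙ k (ι → k))} (hA : IsClopen A) : ∃ ε : ℝ, 0 < ε ∧
    ∀ v w : {v : ι → k // v ≠ 0}, ‖v.1‖ = 1 → ‖w.1‖ = 1 → ‖v.1 - w.1‖ < ε →
      (pj k ι v ∈ A ↔ pj k ι w ∈ A) := by
  have hS : CompactSpace (Metric.sphere (0 : ι → k) 1) :=
    isCompact_iff_compactSpace.1 (isCompact_sphere _ _)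
  have hne : ∀ v : Metric.sphere (0 : ι → k) 1, v.1 ≠ 0 := by
    intro v h
    have := v.2
    rw [h] at this
    simp at this
  obtain ⟨f, hf⟩ : ∃ f : Metric.sphere (0 : ι → k) 1 → ℙ k (ι → k),
      f = fun v => pj k ι ⟨v.1, hne v⟩ := ⟨_, rfl⟩
  have hfc : Continuous f := by
    rw [hf]
    exact pj_continuous.comp (Continuous.subtype_mk continuous_subtype_val _)
  obtain ⟨δ, hδ, h⟩ := lebesgue_number_lemma_of_metric (s := (Set.univ : Set _))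
    (c := fun b : Bool => f ⁻¹' (cond b A Aᶜ)) isCompact_univ (fun b => by
      cases b
      · exact hA.compl.isOpen.preimage hfc
      · exact hA.isOpen.preimage hfc) (fun v _ => by
      by_cases hv : f v ∈ A
      · exact Set.mem_iUnion.2 ⟨true, hv⟩
      · exact Set.mem_iUnion.2 ⟨false, hv⟩)
  refine ⟨δ, hδ, fun v w hv hw hvw => ?_⟩
  obtain ⟨b, hb⟩ := h ⟨v.1, by rw [mem_sphere_zero_iff_norm]; exact hv⟩ (Set.mem_univ _)
  have h1 := hb (Metric.mem_ball_self hδ)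
  have h2 := hb (show (⟨w.1, by rw [mem_sphere_zero_iff_norm]; exact hw⟩ :
    Metric.sphere (0 : ι → k) 1) ∈ Metric.ball _ δ by
      rw [Metric.mem_ball, Subtype.dist_eq, dist_comm, dist_eq_norm]
      exact hvw)
  rw [Set.mem_preimage, hf] at h1 h2
  cases b
  · exact iff_of_false h1 h2
  · exact iff_of_true h1 h2

end ucl

/-! ### Matrices close to rank one -/

section nr

variable {k : Type*} [NormedField k] [IsUltrametricDist k] {n : ℕ}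

/-- `M` is `ε`-close to `w ⊗ φ`, relatively, with `‖w‖ = 1`. -/
def NR (ε : ℝ) (M : Matrix (Fin n) (Fin n) k) (w : Fin n → k) : Prop :=
  ‖w‖ = 1 ∧ ∃ φ : Fin n → k, ∀ i j, ‖M i j - w i * φ j‖ ≤ ε * nr M

theorem nr_exists (M : Matrix (Fin n) (Fin n) k) (hM : M ≠ 0) : ∃ i j, ‖M i j‖ = nr M := by
  obtain ⟨i, j, hij⟩ : ∃ i j, M i j ≠ 0 := by
    by_contra hc
    push Not at hc
    exact hM (by ext i j; exact hc i j)
  haveI : Nonempty (Fin n × Fin n) := ⟨(i, j)⟩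
  obtain ⟨⟨a, b⟩, hab⟩ := Finite.exists_max fun q : Fin n × Fin n => ‖M q.1 q.2‖
  exact ⟨a, b, le_antisymm (entry_le_nr M a b) (nr_le (norm_nonneg _) fun i j => hab (i, j))⟩

theorem vec_exists {ι : Type*} [Fintype ι] {v : ι → k} (hv : v ≠ 0) : ∃ i, ‖v i‖ = ‖v‖ := by
  obtain ⟨i, hi⟩ := Function.ne_iff.1 hv
  haveI : Nonempty ι := ⟨i⟩
  obtain ⟨a, ha⟩ := Finite.exists_max fun q => ‖v q‖
  exact ⟨a, le_antisymm (norm_le_pi_norm v a) ((pi_norm_le_iff_of_nonneg (norm_nonneg _)).2 ha)⟩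

theorem ne_of_norm_one {ι : Type*} [Fintype ι] {v : ι → k} (hv : ‖v‖ = 1) : v ≠ 0 := by
  rintro rfl
  rw [norm_zero] at hv
  exact zero_ne_one hv

/-- if `‖x - y‖ < ‖x‖` then `‖y‖ = ‖x‖` -/
theorem norm_eq_of_lt {x y : k} (h : ‖x - y‖ < ‖x‖) : ‖y‖ = ‖x‖ := by
  have h1 : y = x + -(x - y) := by ring
  have h2 : ‖-(x - y)‖ < ‖x‖ := by rwa [norm_neg]
  rw [h1, IsUltrametricDist.norm_add_eq_max_of_norm_ne_norm h2.ne']
  exact max_eq_left h2.le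

theorem NR.mono {ε ε' : ℝ} {M : Matrix (Fin n) (Fin n) k} {w : Fin n → k} (h : NR ε M w)
    (he : ε ≤ ε') : NR ε' M w := by
  obtain ⟨h1, φ, h2⟩ := h
  exact ⟨h1, φ, fun i j => (h2 i j).trans (mul_le_mul_of_nonneg_right he (nr_nonneg M))⟩

theorem NR.unique {ε : ℝ} (hε : ε < 1) {M : Matrix (Fin n) (Fin n) k} (hM : M ≠ 0)
    {w w' : Fin n → k} (h : NR ε M w) (h' : NR ε M w') :
    ∃ c : k, ‖c‖ = 1 ∧ ‖w - c • w'‖ ≤ ε := by
  obtain ⟨i, j, hij⟩ := nr_exists M hM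
  have hN : 0 < nr M := by
    refine lt_of_le_of_ne (nr_nonneg M) fun h0 => hM ?_
    ext a b
    have := entry_le_nr M a b
    rw [← h0] at this
    exact norm_le_zero_iff.1 this
  have key : ∀ w : Fin n → k, ∀ φ : Fin n → k, ‖w‖ = 1 →
      (∀ i j, ‖M i j - w i * φ j‖ ≤ ε * nr M) → ‖φ j‖ = nr M := by
    intro w φ hw hφ
    refine le_antisymm ?_ ?_
    · obtain ⟨a, ha⟩ := vec_exists (ne_of_norm_one hw)
      rw [hw] at ha
      have h1 : w a * φ j = M a j + -(M a j - w a * φ j) := by ring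
      have h2 : ‖w a * φ j‖ ≤ nr M := by
        rw [h1]
        refine (IsUltrametricDist.norm_add_le_max _ _).trans (max_le (entry_le_nr M a j) ?_)
        rw [norm_neg]
        exact (hφ a j).trans (mul_le_of_le_one_left hN.le hε.le)
      rwa [norm_mul, ha, one_mul] at h2
    · have h1 : ‖w i * φ j‖ = ‖M i j‖ := by
        refine norm_eq_of_lt ?_
        rw [hij]
        refine lt_of_le_of_lt (hφ i j) ?_
        exact mul_lt_of_lt_one_left hN hε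
      rw [hij, norm_mul] at h1
      rw [← h1]
      refine mul_le_of_le_one_left (norm_nonneg _) ?_
      rw [← hw]
      exact norm_le_pi_norm w i
  obtain ⟨hw, φ, hφ⟩ := h
  obtain ⟨hw', φ', hφ'⟩ := h'
  have h1 := key w φ hw hφ
  have h2 := key w' φ' hw' hφ'
  have hne : φ j ≠ 0 := norm_pos_iff.1 (by rw [h1]; exact hN)
  have hε0 : 0 ≤ ε := by
    have := (norm_nonneg _).trans (hφ i j)
    exact nonneg_of_mul_nonneg_left this hN
  refine ⟨φ' j / φ j, by rw [norm_div, h1, h2, div_self hN.ne'], ?_⟩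
  refine (pi_norm_le_iff_of_nonneg hε0).2 fun l => ?_
  rw [Pi.sub_apply, Pi.smul_apply, smul_eq_mul]
  have h3 : w l - φ' j / φ j * w' l = ((M l j - w' l * φ' j) - (M l j - w l * φ j)) / φ j := by
    field_simp
    ring
  rw [h3, norm_div, h1, div_le_iff₀ hN, sub_eq_add_neg]
  refine (IsUltrametricDist.norm_add_le_max _ _).trans (max_le (hφ' l j) ?_)
  rw [norm_neg]
  exact hφ l j

theorem mul_nr_le {M N : Matrix (Fin n) (Fin n) k} : nr (M * N) ≤ nr M * nr N := nr_mul_le M N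

theorem NR.right {ε : ℝ} (hε : 0 ≤ ε) {M : Matrix (Fin n) (Fin n) k} {w : Fin n → k}
    (h : NR ε M w) (s : (Matrix (Fin n) (Fin n) k)ˣ) :
    NR (ε * (nr s.1 * nr (s⁻¹).1)) (M * s.1) w := by
  obtain ⟨hw, φ, hφ⟩ := h
  refine ⟨hw, fun j => ∑ l, φ l * s.1 l j, fun i j => ?_⟩
  have h1 : (M * s.1) i j - w i * ∑ l, φ l * s.1 l j = ∑ l, (M i l - w i * φ l) * s.1 l j := by
    rw [Matrix.mul_apply, Finset.mul_sum, ← Finset.sum_sub_distrib]
    exact Finset.sum_congr rfl fun l _ => by ring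
  rw [h1]
  refine IsUltrametricDist.norm_sum_le_of_forall_le_of_nonneg
    (mul_nonneg (mul_nonneg hε (mul_nonneg (nr_nonneg _) (nr_nonneg _))) (nr_nonneg _))
    fun l _ => ?_
  rw [norm_mul]
  have h2 : nr M ≤ nr (M * s.1) * nr (s⁻¹).1 := by
    have := nr_mul_le (M * s.1) (s⁻¹).1
    rwa [mul_assoc, Units.mul_inv, mul_one] at this
  calc ‖M i l - w i * φ l‖ * ‖s.1 l j‖ ≤ (ε * nr M) * nr s.1 :=
        mul_le_mul (hφ i l) (entry_le_nr _ _ _) (norm_nonneg _) (mul_nonneg hε (nr_nonneg _))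
    _ ≤ (ε * (nr (M * s.1) * nr (s⁻¹).1)) * nr s.1 :=
        mul_le_mul_of_nonneg_right (mul_le_mul_of_nonneg_left h2 hε) (nr_nonneg _)
    _ = _ := by ring

theorem NR.left {ε : ℝ} (hε : 0 ≤ ε) {M : Matrix (Fin n) (Fin n) k} {w : Fin n → k}
    (h : NR ε M w) (s : (Matrix (Fin n) (Fin n) k)ˣ) : ∃ c : k, c ≠ 0 ∧
    NR (ε * (nr s.1 * nr (s⁻¹).1)) (s.1 * M) (c • (s.1 *ᵥ w)) := by
  obtain ⟨hw, φ, hφ⟩ := h
  have hne : s.1 *ᵥ w ≠ 0 := by
    intro h0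
    have h1 : w = (s⁻¹).1 *ᵥ (s.1 *ᵥ w) := by
      rw [Matrix.mulVec_mulVec, Units.inv_mul, Matrix.one_mulVec]
    rw [h0, Matrix.mulVec_zero] at h1
    exact ne_of_norm_one hw h1
  obtain ⟨a, ha⟩ := vec_exists hne
  have hc : (s.1 *ᵥ w) a ≠ 0 := by
    intro h0
    rw [h0, norm_zero] at ha
    exact hne (norm_eq_zero.1 ha.symm)
  refine ⟨((s.1 *ᵥ w) a)⁻¹, inv_ne_zero hc, ?_, fun j => (s.1 *ᵥ w) a * φ j, fun i j => ?_⟩
  · rw [norm_smul, norm_inv, ha, inv_mul_cancel₀]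
    exact norm_ne_zero_iff.2 hne
  · have h1 : (s.1 * M) i j - ((((s.1 *ᵥ w) a)⁻¹ • (s.1 *ᵥ w)) i * ((s.1 *ᵥ w) a * φ j)) =
        ∑ l, s.1 i l * (M l j - w l * φ j) := by
      rw [Pi.smul_apply, smul_eq_mul]
      have h2 : ((s.1 *ᵥ w) a)⁻¹ * (s.1 *ᵥ w) i * ((s.1 *ᵥ w) a * φ j) = (s.1 *ᵥ w) i * φ j := by
        field_simp
      rw [h2, Matrix.mul_apply, Matrix.mulVec, dotProduct, Finset.sum_mul,
        ← Finset.sum_sub_distrib]
      exact Finset.sum_congr rfl fun l _ => by ring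
    rw [h1]
    refine IsUltrametricDist.norm_sum_le_of_forall_le_of_nonneg
      (mul_nonneg (mul_nonneg hε (mul_nonneg (nr_nonneg _) (nr_nonneg _))) (nr_nonneg _))
      fun l _ => ?_
    rw [norm_mul]
    have h2 : nr M ≤ nr (s⁻¹).1 * nr (s.1 * M) := by
      have := nr_mul_le (s⁻¹).1 (s.1 * M)
      rwa [← mul_assoc, Units.inv_mul, one_mul] at this
    calc ‖s.1 i l‖ * ‖M l j - w l * φ j‖ ≤ nr s.1 * (ε * nr M) :=
          mul_le_mul (entry_le_nr _ _ _) (hφ l j) (norm_nonneg _) (nr_nonneg _)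
      _ ≤ nr s.1 * (ε * (nr (s⁻¹).1 * nr (s.1 * M))) :=
          mul_le_mul_of_nonneg_left (mul_le_mul_of_nonneg_left h2 hε) (nr_nonneg _)
      _ = _ := by ring

/-! ### Attracting points -/

/-- the attracting vector -/
noncomputable def bv (hn : 0 < n) (M : Matrix (Fin n) (Fin n) k) : Fin n → k :=
  fun i => (car M).u i ⟨0, hn⟩

theorem norm_bv (hn : 0 < n) (M : Matrix (Fin n) (Fin n) k) : ‖bv hn M‖ = 1 := by
  refine le_antisymm ((pi_norm_le_iff_of_nonneg zero_le_one).2 fun i => (car M).hu.le i _) ?_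
  have h1 := congrFun (congrFun (car M).hu.mul' ⟨0, hn⟩) ⟨0, hn⟩
  rw [Matrix.one_apply_eq, Matrix.mul_apply] at h1
  have h2 : ‖∑ l, (car M).ui ⟨0, hn⟩ l * (car M).u l ⟨0, hn⟩‖ ≤ ‖bv hn M‖ := by
    refine IsUltrametricDist.norm_sum_le_of_forall_le_of_nonneg (norm_nonneg _) fun l _ => ?_
    rw [norm_mul]
    calc ‖(car M).ui ⟨0, hn⟩ l‖ * ‖(car M).u l ⟨0, hn⟩‖ ≤ 1 * ‖bv hn M‖ :=
          mul_le_mul ((car M).hu.lei _ _) (norm_le_pi_norm (bv hn M) l) (norm_nonneg _) zero_le_one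
      _ = _ := one_mul _
  rwa [h1, norm_one] at h2

theorem sv_zero_le (hn : 0 < n) (M : Matrix (Fin n) (Fin n) k) : sv M ⟨0, hn⟩ ≤ nr M := by
  have h1 : diagonal (car M).a = (car M).ui * M * (car M).vi := by
    have h0 : (car M).ui * M * (car M).vi =
        (car M).ui * ((car M).u * diagonal (car M).a * (car M).v) * (car M).vi :=
      congrArg (fun X => (car M).ui * X * (car M).vi) (car M).eq
    rw [h0]
    calc diagonal (car M).a = 1 * diagonal (car M).a * 1 := by rw [one_mul, mul_one]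
      _ = ((car M).ui * (car M).u) * diagonal (car M).a * ((car M).v * (car M).vi) := by
        rw [(car M).hu.mul', (car M).hv.mul]
      _ = _ := by simp only [Matrix.mul_assoc]
  have h2 := congrFun (congrFun h1 ⟨0, hn⟩) ⟨0, hn⟩
  rw [Matrix.diagonal_apply_eq] at h2
  rw [sv, h2]
  have h3 : ∀ i j, ‖((car M).ui * M) i j‖ ≤ 1 * nr M :=
    mul_entry_le' zero_le_one (nr_nonneg _) (car M).hu.lei (entry_le_nr M)
  have h4 := mul_entry_le' (by rw [one_mul]; exact nr_nonneg _) zero_le_one h3 (car M).hv.lei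
    ⟨0, hn⟩ ⟨0, hn⟩
  rwa [one_mul, mul_one] at h4

theorem car_rank_one (hn : 1 < n) (M : Matrix (Fin n) (Fin n) k) (i j : Fin n) :
    ‖M i j - bv (by omega) M i * ((car M).a ⟨0, by omega⟩ * (car M).v ⟨0, by omega⟩ j)‖ ≤
      sv M ⟨1, hn⟩ := by
  have h1 : M i j = ∑ l, (car M).u i l * (car M).a l * (car M).v l j := by
    conv_lhs => rw [(car M).eq]
    rw [Matrix.mul_apply]
    exact Finset.sum_congr rfl fun l _ => by rw [Matrix.mul_diagonal]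
  rw [h1, ← Finset.add_sum_erase Finset.univ (fun l => (car M).u i l * (car M).a l * (car M).v l j)
    (Finset.mem_univ (⟨0, by omega⟩ : Fin n)), bv]
  have h2 : (car M).u i ⟨0, by omega⟩ * (car M).a ⟨0, by omega⟩ * (car M).v ⟨0, by omega⟩ j +
      ∑ l ∈ Finset.univ.erase (⟨0, by omega⟩ : Fin n), (car M).u i l * (car M).a l * (car M).v l j -
      (car M).u i ⟨0, by omega⟩ * ((car M).a ⟨0, by omega⟩ * (car M).v ⟨0, by omega⟩ j) =
      ∑ l ∈ Finset.univ.erase (⟨0, by omega⟩ : Fin n),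
        (car M).u i l * (car M).a l * (car M).v l j := by ring
  rw [h2]
  refine IsUltrametricDist.norm_sum_le_of_forall_le_of_nonneg (norm_nonneg _) fun l hl => ?_
  have hl' : l ≠ ⟨0, by omega⟩ := Finset.ne_of_mem_erase hl
  rw [norm_mul, norm_mul]
  have h3 : ‖(car M).a l‖ ≤ ‖(car M).a ⟨1, hn⟩‖ := by
    refine (car M).anti (Fin.le_def.2 ?_)
    have : (l : ℕ) ≠ 0 := fun h => hl' (Fin.ext h)
    show 1 ≤ (l : ℕ)
    omega
  calc ‖(car M).u i l‖ * ‖(car M).a l‖ * ‖(car M).v l j‖ ≤ 1 * ‖(car M).a ⟨1, hn⟩‖ * 1 :=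
        mul_le_mul (mul_le_mul ((car M).hu.le _ _) h3 (norm_nonneg _) zero_le_one)
          ((car M).hv.le _ _) (norm_nonneg _) (by rw [one_mul]; exact norm_nonneg _)
    _ = _ := by rw [one_mul, mul_one]; rfl

theorem nr_bv (hn : 1 < n) (γ : (Matrix (Fin n) (Fin n) k)ˣ) :
    NR (sv γ.1 ⟨1, hn⟩ / sv γ.1 ⟨0, by omega⟩) γ.1 (bv (by omega) γ.1) := by
  have hdet : γ.1.det ≠ 0 := (Matrix.isUnits_det_units γ).ne_zero
  have h0 := sv_pos hdet ⟨0, by omega⟩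
  refine ⟨norm_bv _ _, _, fun i j => (car_rank_one hn γ.1 i j).trans ?_⟩
  calc sv γ.1 ⟨1, hn⟩ = sv γ.1 ⟨1, hn⟩ / sv γ.1 ⟨0, by omega⟩ * sv γ.1 ⟨0, by omega⟩ := by
        rw [div_mul_cancel₀ _ h0.ne']
    _ ≤ _ := mul_le_mul_of_nonneg_left (sv_zero_le _ _)
        (div_nonneg (sv_pos hdet _).le h0.le)

/-- the ratio of the first two singular values -/
noncomputable def q1 (hn : 1 < n) (M : Matrix (Fin n) (Fin n) k) : ℝ :=
  sv M ⟨0, by omega⟩ / sv M ⟨1, hn⟩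

/-- the ratio of the second and the last singular values -/
noncomputable def q2 (hn : 1 < n) (M : Matrix (Fin n) (Fin n) k) : ℝ :=
  sv M ⟨1, hn⟩ / sv M ⟨n - 1, by omega⟩

theorem q1_pos (hn : 1 < n) (γ : (Matrix (Fin n) (Fin n) k)ˣ) : 0 < q1 hn γ.1 :=
  div_pos (sv_pos (Matrix.isUnits_det_units γ).ne_zero _)
    (sv_pos (Matrix.isUnits_det_units γ).ne_zero _)

theorem nr_bv' (hn : 1 < n) (γ : (Matrix (Fin n) (Fin n) k)ˣ) :
    NR (q1 hn γ.1)⁻¹ γ.1 (bv (by omega) γ.1) := by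
  rw [q1, inv_div]
  exact nr_bv hn γ

theorem q1_right (hn : 1 < n) (γ s : (Matrix (Fin n) (Fin n) k)ˣ) :
    (q1 hn (γ * s).1)⁻¹ ≤ (q1 hn γ.1)⁻¹ * (nr s.1 * nr (s⁻¹).1) := by
  have hdγ : γ.1.det ≠ 0 := (Matrix.isUnits_det_units γ).ne_zero
  have hds : s.1.det ≠ 0 := (Matrix.isUnits_det_units s).ne_zero
  have hdsi : (s⁻¹).1.det ≠ 0 := (Matrix.isUnits_det_units s⁻¹).ne_zero
  have hdgs : (γ * s).1.det ≠ 0 := (Matrix.isUnits_det_units (γ * s)).ne_zero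
  have h1 : sv (γ * s).1 ⟨1, hn⟩ ≤ nr s.1 * sv γ.1 ⟨1, hn⟩ := sv_right_le hdγ hds _
  have h2 : sv γ.1 ⟨0, by omega⟩ ≤ nr (s⁻¹).1 * sv (γ * s).1 ⟨0, by omega⟩ := by
    have := sv_right_le hdgs hdsi ⟨0, by omega⟩
    rwa [← Units.val_mul, mul_inv_cancel_right] at this
  have p0 := sv_pos hdγ ⟨0, by omega⟩
  have p0' := sv_pos hdgs ⟨0, by omega⟩
  rw [q1, q1, inv_div, inv_div, div_le_iff₀ p0']
  calc sv (γ * s).1 ⟨1, hn⟩ ≤ nr s.1 * sv γ.1 ⟨1, hn⟩ := h1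
    _ = (nr s.1 * (sv γ.1 ⟨1, hn⟩ / sv γ.1 ⟨0, by omega⟩)) * sv γ.1 ⟨0, by omega⟩ := by
        rw [mul_assoc, div_mul_cancel₀ _ p0.ne']
    _ ≤ (nr s.1 * (sv γ.1 ⟨1, hn⟩ / sv γ.1 ⟨0, by omega⟩)) *
          (nr (s⁻¹).1 * sv (γ * s).1 ⟨0, by omega⟩) :=
        mul_le_mul_of_nonneg_left h2 (mul_nonneg (nr_nonneg _)
          (div_nonneg (sv_pos hdγ _).le p0.le))
    _ = _ := by ring

theorem q1_left (hn : 1 < n) (γ s : (Matrix (Fin n) (Fin n) k)ˣ) :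
    (q1 hn (s * γ).1)⁻¹ ≤ (q1 hn γ.1)⁻¹ * (nr s.1 * nr (s⁻¹).1) := by
  have hdγ : γ.1.det ≠ 0 := (Matrix.isUnits_det_units γ).ne_zero
  have hds : s.1.det ≠ 0 := (Matrix.isUnits_det_units s).ne_zero
  have hdsi : (s⁻¹).1.det ≠ 0 := (Matrix.isUnits_det_units s⁻¹).ne_zero
  have hdgs : (s * γ).1.det ≠ 0 := (Matrix.isUnits_det_units (s * γ)).ne_zero
  have h1 : sv (s * γ).1 ⟨1, hn⟩ ≤ nr s.1 * sv γ.1 ⟨1, hn⟩ := sv_left_le hds hdγ _
  have h2 : sv γ.1 ⟨0, by omega⟩ ≤ nr (s⁻¹).1 * sv (s * γ).1 ⟨0, by omega⟩ := by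
    have := sv_left_le hdsi hdgs ⟨0, by omega⟩
    rwa [← Units.val_mul, inv_mul_cancel_left] at this
  have p0 := sv_pos hdγ ⟨0, by omega⟩
  have p0' := sv_pos hdgs ⟨0, by omega⟩
  rw [q1, q1, inv_div, inv_div, div_le_iff₀ p0']
  calc sv (s * γ).1 ⟨1, hn⟩ ≤ nr s.1 * sv γ.1 ⟨1, hn⟩ := h1
    _ = (nr s.1 * (sv γ.1 ⟨1, hn⟩ / sv γ.1 ⟨0, by omega⟩)) * sv γ.1 ⟨0, by omega⟩ := by
        rw [mul_assoc, div_mul_cancel₀ _ p0.ne']
    _ ≤ (nr s.1 * (sv γ.1 ⟨1, hn⟩ / sv γ.1 ⟨0, by omega⟩)) *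
          (nr (s⁻¹).1 * sv (s * γ).1 ⟨0, by omega⟩) :=
        mul_le_mul_of_nonneg_left h2 (mul_nonneg (nr_nonneg _)
          (div_nonneg (sv_pos hdγ _).le p0.le))
    _ = _ := by ring

end nr

/-! ### Stability of the attracting point -/

section stab

variable {k : Type*} [NormedField k] [IsUltrametricDist k] {n : ℕ}

/-- the attracting point -/
noncomputable def bp (hn : 0 < n) (γ : (Matrix (Fin n) (Fin n) k)ˣ) : ℙ k (Fin n → k) :=
  pj k (Fin n) ⟨bv hn γ.1, ne_of_norm_one (norm_bv hn γ.1)⟩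

theorem pj_smul_vec {v w : {v : Fin n → k // v ≠ 0}} {c : k} (hc : c ≠ 0) (h : v.1 = c • w.1) :
    pj k (Fin n) v = pj k (Fin n) w := (pj_eq _ _).2 ⟨Units.mk0 c hc, h.symm⟩

variable [ProperSpace k]

theorem bp_close {A : Set (ℙ k (Fin n → k))} (hA : IsClopen A) : ∃ ε : ℝ, 0 < ε ∧ ε < 1 ∧
    ∀ M : Matrix (Fin n) (Fin n) k, M ≠ 0 → ∀ v w : {v : Fin n → k // v ≠ 0}, NR ε M v.1 →
      NR ε M w.1 → (pj k (Fin n) v ∈ A ↔ pj k (Fin n) w ∈ A) := by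
  obtain ⟨ε, hε, h⟩ := ucl hA
  refine ⟨min (ε / 2) (1 / 2), lt_min (by positivity) (by norm_num),
    lt_of_le_of_lt (min_le_right _ _) (by norm_num), fun M hM v w hv hw => ?_⟩
  obtain ⟨c, hc, hcw⟩ := NR.unique (lt_of_le_of_lt (min_le_right _ _) (by norm_num)) hM hv hw
  have hc0 : c ≠ 0 := norm_pos_iff.1 (by rw [hc]; exact one_pos)
  have hcw0 : c • w.1 ≠ 0 := smul_ne_zero hc0 w.2
  have h1 := h v ⟨c • w.1, hcw0⟩ hv.1 (by rw [norm_smul, hc, one_mul]; exact hw.1)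
    (lt_of_le_of_lt (hcw.trans (min_le_left _ _)) (by linarith))
  rw [h1, pj_smul_vec (w := w) hc0 rfl]

theorem unit_ne (hn : 0 < n) (γ : (Matrix (Fin n) (Fin n) k)ˣ) : γ.1 ≠ 0 := by
  haveI : Nontrivial (Matrix (Fin n) (Fin n) k) := by
    haveI : Nonempty (Fin n) := ⟨⟨0, hn⟩⟩
    infer_instance
  exact γ.ne_zero

/-- **Right stability** -/
theorem bp_right (hn : 1 < n) {A : Set (ℙ k (Fin n → k))} (hA : IsClopen A) {C : ℝ}
    (hC : 0 < C) : ∃ T : ℝ, ∀ γ s : (Matrix (Fin n) (Fin n) k)ˣ, nr s.1 * nr (s⁻¹).1 ≤ C →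
      T ≤ q1 hn γ.1 → (bp (by omega) (γ * s) ∈ A ↔ bp (by omega) γ ∈ A) := by
  obtain ⟨ε, hε, hε1, h⟩ := bp_close hA
  refine ⟨C / ε, fun γ s hs hT => ?_⟩
  have hT0 : 0 < C / ε := by positivity
  have h1 : (q1 hn γ.1)⁻¹ ≤ ε / C := by
    rw [← inv_div]
    exact inv_anti₀ hT0 hT
  have h2 : (q1 hn γ.1)⁻¹ * (nr s.1 * nr (s⁻¹).1) ≤ ε := by
    calc (q1 hn γ.1)⁻¹ * (nr s.1 * nr (s⁻¹).1) ≤ ε / C * C :=
          mul_le_mul h1 hs (mul_nonneg (nr_nonneg _) (nr_nonneg _)) (by positivity)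
      _ = ε := div_mul_cancel₀ _ hC.ne'
  refine h (γ * s).1 (unit_ne (by omega) _) _ _ ?_ ?_
  · exact (nr_bv' hn (γ * s)).mono ((q1_right hn γ s).trans h2)
  · exact ((nr_bv' hn γ).right (inv_nonneg.2 (q1_pos hn γ).le) s).mono h2

/-- **Left stability** -/
theorem bp_left (hn : 1 < n) {A : Set (ℙ k (Fin n → k))} (hA : IsClopen A) {C : ℝ}
    (hC : 0 < C) : ∃ T : ℝ, ∀ γ s : (Matrix (Fin n) (Fin n) k)ˣ, nr s.1 * nr (s⁻¹).1 ≤ C →
      T ≤ q1 hn γ.1 → (bp (by omega) (s * γ) ∈ A ↔ s • bp (by omega) γ ∈ A) := by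
  obtain ⟨ε, hε, hε1, h⟩ := bp_close hA
  refine ⟨C / ε, fun γ s hs hT => ?_⟩
  have hT0 : 0 < C / ε := by positivity
  have h1 : (q1 hn γ.1)⁻¹ ≤ ε / C := by
    rw [← inv_div]
    exact inv_anti₀ hT0 hT
  have h2 : (q1 hn γ.1)⁻¹ * (nr s.1 * nr (s⁻¹).1) ≤ ε := by
    calc (q1 hn γ.1)⁻¹ * (nr s.1 * nr (s⁻¹).1) ≤ ε / C * C :=
          mul_le_mul h1 hs (mul_nonneg (nr_nonneg _) (nr_nonneg _)) (by positivity)
      _ = ε := div_mul_cancel₀ _ hC.ne'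
  obtain ⟨c, hc, hN⟩ := (nr_bv' hn γ).left (inv_nonneg.2 (q1_pos hn γ).le) s
  have hN' := hN.mono h2
  have hv : c • (s.1 *ᵥ bv (by omega) γ.1) ≠ 0 := ne_of_norm_one hN'.1
  have hv' : s.1 *ᵥ bv (by omega) γ.1 ≠ 0 := fun h0 => hv (by rw [h0, smul_zero])
  have h3 := h (s * γ).1 (unit_ne (by omega) _)
    ⟨bv (by omega) (s * γ).1, ne_of_norm_one (norm_bv (by omega) _)⟩
    ⟨c • (s.1 *ᵥ bv (by omega) γ.1), hv⟩ ((nr_bv' hn (s * γ)).mono ((q1_left hn γ s).trans h2)) hN'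
  rw [bp, h3, pj_smul_vec (w := ⟨s.1 *ᵥ bv (by omega) γ.1, hv'⟩) hc rfl]
  exact Iff.rfl

end stab

end Vale.Agent.P092.H575
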