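import Vale.Agent.P092.H575.Geo2

/-!
P092 (helper575), Team C: finite overlap of the cones over disjoint clopen sets, and the geometric
package for a discrete group.
-/

set_option linter.all false

open Matrix Topology
open scoped LinearAlgebra.Projectivization

namespace Vale.Agent.P092.H575

open Vale.Agent.P092.H933 Vale.Agent.P092.H820

section ovl

variable {k : Type*} [NormedField k] [IsUltrametricDist k] {n : ℕ}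

theorem exists_ker (hn : 2 < n) (ψ χ : Fin n → k) :
    ∃ v : Fin n → k, v ≠ 0 ∧ ∑ j, ψ j * v j = 0 ∧ ∑ j, χ j * v j = 0 := by
  obtain ⟨f, hf⟩ : ∃ f : (Fin n → k) →ₗ[k] (Fin 2 → k),
      ∀ v, f v 0 = ∑ j, ψ j * v j ∧ f v 1 = ∑ j, χ j * v j := by
    refine ⟨(Matrix.of ![ψ, χ]).mulVecLin, fun v => ⟨?_, ?_⟩⟩
    · simp [Matrix.mulVec, dotProduct]
    · simp [Matrix.mulVec, dotProduct]
  have h := LinearMap.ker_ne_bot_of_finrank_lt (f := f) (by simpa using hn)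
  obtain ⟨v, hv, hv0⟩ := Submodule.exists_mem_ne_zero_of_ne_bot h
  refine ⟨v, hv0, ?_, ?_⟩
  · rw [← (hf v).1, LinearMap.mem_ker.1 hv]; rfl
  · rw [← (hf v).2, LinearMap.mem_ker.1 hv]; rfl

/-- the comparison of two near rank one forms of proportional matrices -/
theorem wall_half {B δ : ℝ} (hB : 1 ≤ B) (hδ : 0 < δ) (hδ1 : δ ≤ 1) {w w' : Fin n → k}
    (hw' : ‖w'‖ ≤ 1) (hs : Sv δ w w') {P P' : Matrix (Fin n) (Fin n) k} {t : k}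
    (ht : ‖t‖ ≤ 1) (hP : P' = t • P) {ψ ψ' : Fin n → k}
    (h : ∀ i j, ‖P i j - w i * ψ j‖ ≤ B * B) (h' : ∀ i j, ‖P' i j - w' i * ψ' j‖ ≤ B * B) :
    Cl P' (B * B / δ) := by
  have hB0 : 0 < B := by linarith
  intro i j
  have h1 : ‖(t * ψ j) • w + (-ψ' j) • w'‖ ≤ B * B := by
    refine (pi_norm_le_iff_of_nonneg (by positivity)).2 fun l => ?_
    have h2 : ((t * ψ j) • w + (-ψ' j) • w') l =
        (P' l j - w' l * ψ' j) + -(t * (P l j - w l * ψ j)) := by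
      have h3 : P' l j = t * P l j := by rw [hP]; rfl
      simp only [Pi.add_apply, Pi.smul_apply, smul_eq_mul]
      rw [h3]
      ring
    rw [h2]
    refine (IsUltrametricDist.norm_add_le_max _ _).trans (max_le (h' l j) ?_)
    rw [norm_neg, norm_mul]
    calc ‖t‖ * ‖P l j - w l * ψ j‖ ≤ 1 * (B * B) := mul_le_mul ht (h l j) (norm_nonneg _) zero_le_one
      _ = _ := one_mul _
  have h2 : ‖ψ' j‖ ≤ B * B / δ := by
    rw [le_div_iff₀ hδ, mul_comm]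
    have := (hs (t * ψ j) (-ψ' j)).2
    rw [norm_neg] at this
    exact this.trans h1
  have h3 : P' i j = w' i * ψ' j + (P' i j - w' i * ψ' j) := by ring
  rw [h3]
  refine (IsUltrametricDist.norm_add_le_max _ _).trans (max_le ?_ ((h' i j).trans ?_))
  · rw [norm_mul]
    calc ‖w' i‖ * ‖ψ' j‖ ≤ 1 * (B * B / δ) :=
          mul_le_mul ((norm_le_pi_norm w' i).trans hw') h2 (norm_nonneg _) zero_le_one
      _ = _ := one_mul _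
  · rw [le_div_iff₀ hδ]
    exact mul_le_of_le_one_right (by positivity) hδ1

theorem wall_aux (hn : 2 < n) {B δ : ℝ} (hB : 1 ≤ B) (hδ : 0 < δ) (hδ1 : δ ≤ 1)
    {w w' v v' : Fin n → k} (hw' : ‖w'‖ ≤ 1) (hv : ‖v‖ ≤ 1) (hs : Sv δ w w') (hsv : Sv δ v v')
    {P P' : (Matrix (Fin n) (Fin n) k)ˣ} {t : kˣ} (ht : ‖(t : k)‖ ≤ 1)
    (hP : P'.1 = (t : k) • P.1) {ψ ψ' χ χ' : Fin n → k}
    (h : ∀ i j, ‖P.1 i j - w i * ψ j‖ ≤ B * B) (h' : ∀ i j, ‖P'.1 i j - w' i * ψ' j‖ ≤ B * B)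
    (g : ∀ i j, ‖(P⁻¹).1 i j - v i * χ j‖ ≤ B * B)
    (g' : ∀ i j, ‖(P'⁻¹).1 i j - v' i * χ' j‖ ≤ B * B) :
    Bd (B ^ 6 / δ) P' := by
  have hB0 : 0 < B := by linarith
  have ht0 : 0 < ‖(t : k)‖ := norm_pos_iff.2 t.ne_zero
  have hPi := inv_of_smul hP
  have c1 : Cl P'.1 (B * B / δ) := wall_half hB hδ hδ1 hw' hs ht hP h h'
  have hPi' : (P⁻¹).1 = (t : k) • (P'⁻¹).1 := by
    rw [hPi, smul_smul, Units.mul_inv, one_smul]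
  have c2 : Cl (P⁻¹).1 (B * B / δ) := wall_half hB hδ hδ1 hv hsv.symm ht hPi' g' g
  -- lower bound for `t`
  have htB : (B ^ 4)⁻¹ ≤ ‖(t : k)‖ := by
    obtain ⟨u, hu0, hu1, hu2⟩ := exists_ker hn ψ (fun j => ∑ l, χ' l * P.1 l j)
    have hu : 0 < ‖u‖ := norm_pos_iff.2 hu0
    obtain ⟨y, hy⟩ : ∃ y, y = P.1 *ᵥ u := ⟨_, rfl⟩
    have hyn : ‖y‖ ≤ B * B * ‖u‖ := by
      refine (pi_norm_le_iff_of_nonneg (by positivity)).2 fun i => ?_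
      have e1 : y i = ∑ j, (P.1 i j - w i * ψ j) * u j := by
        have e2 : ∑ j, (P.1 i j - w i * ψ j) * u j = ∑ j, P.1 i j * u j - w i * ∑ j, ψ j * u j := by
          rw [Finset.mul_sum, ← Finset.sum_sub_distrib]
          exact Finset.sum_congr rfl fun l _ => by ring
        rw [e2, hu1, mul_zero, sub_zero, hy]
        rfl
      rw [e1]
      refine IsUltrametricDist.norm_sum_le_of_forall_le_of_nonneg (by positivity) fun l _ => ?_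
      rw [norm_mul]
      exact mul_le_mul (h i l) (norm_le_pi_norm u l) (norm_nonneg _) (by positivity)
    have hχ : ∑ l, χ' l * y l = 0 := by
      rw [← hu2, hy]
      simp only [Matrix.mulVec, dotProduct, Finset.mul_sum, Finset.sum_mul]
      rw [Finset.sum_comm]
      exact Finset.sum_congr rfl fun j _ => Finset.sum_congr rfl fun l _ => by ring
    have hback : ‖(P'⁻¹).1 *ᵥ y‖ ≤ B * B * ‖y‖ := by
      refine (pi_norm_le_iff_of_nonneg (by positivity)).2 fun i => ?_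
      have e1 : ((P'⁻¹).1 *ᵥ y) i = ∑ j, ((P'⁻¹).1 i j - v' i * χ' j) * y j := by
        have e2 : ∑ j, ((P'⁻¹).1 i j - v' i * χ' j) * y j =
            ∑ j, (P'⁻¹).1 i j * y j - v' i * ∑ j, χ' j * y j := by
          rw [Finset.mul_sum, ← Finset.sum_sub_distrib]
          exact Finset.sum_congr rfl fun l _ => by ring
        rw [e2, hχ, mul_zero, sub_zero]
        rfl
      rw [e1]
      refine IsUltrametricDist.norm_sum_le_of_forall_le_of_nonneg (by positivity) fun l _ => ?_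
      rw [norm_mul]
      exact mul_le_mul (g' i l) (norm_le_pi_norm y l) (norm_nonneg _) (by positivity)
    have e3 : (P'⁻¹).1 *ᵥ y = ((t⁻¹ : kˣ) : k) • u := by
      rw [hy, hPi, Matrix.smul_mulVec, Matrix.mulVec_mulVec, Units.inv_mul, Matrix.one_mulVec]
    rw [e3, norm_smul, norm_inv_unit] at hback
    have h5 : ‖(t : k)‖⁻¹ * ‖u‖ ≤ B * B * (B * B * ‖u‖) :=
      hback.trans (mul_le_mul_of_nonneg_left hyn (by positivity))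
    have h6 : ‖(t : k)‖⁻¹ ≤ B ^ 4 := by
      have : ‖(t : k)‖⁻¹ * ‖u‖ ≤ B ^ 4 * ‖u‖ := h5.trans (le_of_eq (by ring))
      exact le_of_mul_le_mul_right this hu
    exact inv_le_of_inv_le₀ ht0 h6
  have hB6 : B * B / δ ≤ B ^ 6 / δ := by
    refine div_le_div_of_nonneg_right ?_ hδ.le
    have : 1 ≤ B ^ 4 := one_le_pow₀ hB
    nlinarith [mul_pos hB0 hB0]
  refine ⟨c1.mono hB6, ?_⟩
  rw [hPi]
  refine (c2.smul _).mono ?_
  rw [norm_inv_unit]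
  have h7 : ‖(t : k)‖⁻¹ ≤ B ^ 4 := by
    have := inv_anti₀ (by positivity) htB
    rwa [inv_inv] at this
  calc ‖(t : k)‖⁻¹ * (B * B / δ) ≤ B ^ 4 * (B * B / δ) :=
        mul_le_mul_of_nonneg_right h7 (by positivity)
    _ = B ^ 6 / δ := by ring

/-- **Finite overlap**: if `x₂ x₁⁻¹ = y₂ y₁⁻¹`, all four elements are in the wall cone and the base
points of the `x`'s are separated from those of the `y`'s, the quotient is bounded up to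
scalars. -/
theorem overlap_aux (hn : 2 < n) {o : Fin n} {B δ : ℝ} (hB : 1 ≤ B) (hδ : 0 < δ) (hδ1 : δ ≤ 1)
    {x₁ x₂ y₁ y₂ c₁ c₂ d₁ d₂ κ₁ κ₂ l₁ l₂ : (Matrix (Fin n) (Fin n) k)ˣ} {α₁ α₂ β₁ β₂ z₁ z₂ w₁ w₂ : kˣ}
    (hx₁ : CF o B x₁ c₁ α₁ κ₁ z₁) (hx₂ : CF o B x₂ c₂ α₂ κ₂ z₂)
    (hy₁ : CF o B y₁ d₁ β₁ l₁ w₁) (hy₂ : CF o B y₂ d₂ β₂ l₂ w₂)
    (hs₁ : Sv δ (fun i => c₁.1 i o) (fun i => d₁.1 i o))
    (hs₂ : Sv δ (fun i => c₂.1 i o) (fun i => d₂.1 i o))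
    (nc₁ : ‖fun i => c₁.1 i o‖ ≤ 1) (nc₂ : ‖fun i => c₂.1 i o‖ ≤ 1)
    (nd₁ : ‖fun i => d₁.1 i o‖ ≤ 1) (nd₂ : ‖fun i => d₂.1 i o‖ ≤ 1)
    (he : x₂ * x₁⁻¹ = y₂ * y₁⁻¹) :
    ∃ (z : kˣ) (g : (Matrix (Fin n) (Fin n) k)ˣ), Bd (B ^ 6 / δ) g ∧
      (x₂ * x₁⁻¹).1 = (z : k) • g.1 := by
  have key : ∀ {a₁ a₂ e₁ e₂ μ₁ μ₂ : (Matrix (Fin n) (Fin n) k)ˣ} {θ₁ θ₂ ζ₁ ζ₂ : kˣ},
      CF o B a₁ e₁ θ₁ μ₁ ζ₁ → CF o B a₂ e₂ θ₂ μ₂ ζ₂ →
      ∃ (s : kˣ) (P : (Matrix (Fin n) (Fin n) k)ˣ), (a₂ * a₁⁻¹).1 = (s : k) • P.1 ∧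
        (∃ ψ : Fin n → k, ∀ i j, ‖P.1 i j - e₂.1 i o * ψ j‖ ≤ B * B) ∧
        ∃ χ : Fin n → k, ∀ i j, ‖(P⁻¹).1 i j - e₁.1 i o * χ j‖ ≤ B * B := by
    intro a₁ a₂ e₁ e₂ μ₁ μ₂ θ₁ θ₂ ζ₁ ζ₂ h₁ h₂
    refine ⟨ζ₂ * ζ₁⁻¹, e₂ * dg o θ₂ * (μ₂ * μ₁⁻¹) * (dg o θ₁)⁻¹ * e₁⁻¹, ?_, ?_, ?_⟩
    · rw [Units.val_mul a₂, inv_of_smul h₁.eq, h₂.eq, Matrix.smul_mul, Matrix.mul_smul, smul_smul,
        ← Units.val_mul (e₂ * dg o θ₂ * μ₂), ← Units.val_mul ζ₂]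
      congr 2
      group
    · exact half_dec θ₂ h₂.bd h₁.bd ((KK k _).mul_mem h₂.int ((KK k _).inv_mem h₁.int)) h₁.one
    · obtain ⟨χ, hχ⟩ := half_dec (o := o) θ₁ h₁.bd h₂.bd
        ((KK k _).mul_mem h₁.int ((KK k _).inv_mem h₂.int)) h₂.one
      refine ⟨χ, fun i j => ?_⟩
      have e : (e₂ * dg o θ₂ * (μ₂ * μ₁⁻¹) * (dg o θ₁)⁻¹ * e₁⁻¹)⁻¹ =
          e₁ * dg o θ₁ * (μ₁ * μ₂⁻¹) * (dg o θ₂)⁻¹ * e₂⁻¹ := by group
      rw [e]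
      exact hχ i j
  obtain ⟨s, P, hsP, ⟨ψ, hψ⟩, χ, hχ⟩ := key hx₁ hx₂
  obtain ⟨s', P', hsP', ⟨ψ', hψ'⟩, χ', hχ'⟩ := key hy₁ hy₂
  rw [he, hsP'] at hsP
  have hPP : P'.1 = ((s'⁻¹ * s : kˣ) : k) • P.1 := by
    rw [Units.val_mul s'⁻¹, ← smul_smul, ← hsP, smul_smul, Units.inv_mul, one_smul]
  by_cases ht : ‖((s'⁻¹ * s : kˣ) : k)‖ ≤ 1
  · have := wall_aux hn hB hδ hδ1 nd₂ nc₁ hs₂ hs₁ ht hPP hψ hψ' hχ hχ'
    exact ⟨s', P', this, by rw [he, hsP']⟩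
  · push Not at ht
    have hPP' : P.1 = (((s'⁻¹ * s)⁻¹ : kˣ) : k) • P'.1 := by
      rw [hPP, smul_smul, Units.inv_mul, one_smul]
    have ht' : ‖(((s'⁻¹ * s)⁻¹ : kˣ) : k)‖ ≤ 1 := by
      rw [norm_inv_unit]
      exact inv_le_one_of_one_le₀ ht.le
    have := wall_aux hn hB hδ hδ1 nc₂ nd₁ hs₂.symm hs₁.symm ht' hPP' hψ' hψ hχ' hχ
    exact ⟨s, P, this, by rw [he, hsP', hsP]⟩

end ovl

end Vale.Agent.P092.H575
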