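import Vale.Agent.P092.H575.Geo5

/-!
P092 (helper575), Team C: singular values of the inverse and of the inverse transposed; the dual
geometric package.
-/

set_option linter.all false

open Matrix Topology TopologicalSpace
open scoped LinearAlgebra.Projectivization

namespace Vale.Agent.P092.H575

open Vale.Agent.P092.H933 Vale.Agent.P092.H820 Vale.Agent.P092.H859.CL

section uniq

variable {k : Type*} [NormedField k] [IsUltrametricDist k] {n : ℕ}

/-- **Uniqueness of the singular values** -/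
theorem sv_unique {M u ui v vi : Matrix (Fin n) (Fin n) k} {a : Fin n → k} (hu : InK u ui)
    (hv : InK v vi) (ha : Antitone fun i => ‖a i‖) (he : M = u * diagonal a * v) (i : Fin n) :
    sv M i = ‖a i‖ := by
  have e1 : u * diagonal a * v = (car M).u * diagonal (car M).a * (car M).v := by
    rw [← he]; exact (car M).eq
  have hP : InK (ui * (car M).u) ((car M).ui * u) := hu.symm.mulK (car M).hu
  have hQ : InK (v * (car M).vi) ((car M).v * vi) := hv.mulK (car M).hv.symm
  have e2 : diagonal a * (v * (car M).vi) = (ui * (car M).u) * diagonal (car M).a := by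
    have h1 : ui * (u * diagonal a * v) * (car M).vi =
        ui * ((car M).u * diagonal (car M).a * (car M).v) * (car M).vi := by rw [e1]
    have h2 : ui * (u * diagonal a * v) * (car M).vi = diagonal a * (v * (car M).vi) := by
      calc _ = (ui * u) * diagonal a * (v * (car M).vi) := by simp only [Matrix.mul_assoc]
        _ = _ := by rw [hu.mul', Matrix.one_mul]
    have h3 : ui * ((car M).u * diagonal (car M).a * (car M).v) * (car M).vi =
        (ui * (car M).u) * diagonal (car M).a := by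
      calc _ = (ui * (car M).u) * diagonal (car M).a * ((car M).v * (car M).vi) := by
            simp only [Matrix.mul_assoc]
        _ = _ := by rw [(car M).hv.mul, Matrix.mul_one]
    rw [← h2, h1, h3]
  have e3 : ∀ i j, ‖a i‖ * ‖(v * (car M).vi) i j‖ = ‖(ui * (car M).u) i j‖ * sv M j := by
    intro i j
    have := congrFun (congrFun e2 i) j
    rw [Matrix.diagonal_mul, Matrix.mul_diagonal] at this
    rw [← norm_mul, this, norm_mul]
    rfl
  refine le_antisymm ?_ ?_
  · obtain ⟨σ, hσ⟩ := hP.exists_perm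
    have h1 := sort_le (x := sv M) (y := fun i => ‖a i‖) (sv_anti M) ha zero_le_one σ⁻¹
      (fun l => ?_) i
    · simpa using h1
    · have h2 := e3 l (σ⁻¹ l)
      have h3 : ‖(ui * (car M).u) l (σ⁻¹ l)‖ = 1 := by
        have := hσ (σ⁻¹ l)
        rwa [show σ (σ⁻¹ l) = l from σ.apply_symm_apply l] at this
      rw [h3, one_mul] at h2
      rw [← h2, one_mul]
      exact mul_le_of_le_one_right (norm_nonneg _) (hQ.le _ _)
  · obtain ⟨σ, hσ⟩ := hQ.exists_perm
    have h1 := sort_le (x := fun i => ‖a i‖) (y := sv M) ha (sv_anti M) zero_le_one σ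
      (fun l => ?_) i
    · simpa using h1
    · have h2 := e3 (σ l) l
      rw [hσ l, mul_one] at h2
      show ‖a (σ l)‖ ≤ 1 * sv M l
      rw [h2]
      exact mul_le_mul_of_nonneg_right (hP.le _ _) (norm_nonneg _)

theorem ink_tr {κ κi : Matrix (Fin n) (Fin n) k} (h : InK κ κi) : InK κᵀ κiᵀ where
  le i j := h.le j i
  lei i j := h.lei j i
  mul := by rw [← Matrix.transpose_mul, h.mul', Matrix.transpose_one]
  mul' := by rw [← Matrix.transpose_mul, h.mul, Matrix.transpose_one]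

theorem ink_rows {κ κi : Matrix (Fin n) (Fin n) k} (h : InK κ κi) (σ : Equiv.Perm (Fin n)) :
    InK (κ.submatrix id σ) (κi.submatrix σ id) := (h.symm.perm_left σ).symm

/-- the singular values of a matrix with a decomposition with increasing diagonal -/
theorem sv_rev {M u ui v vi : Matrix (Fin n) (Fin n) k} {a : Fin n → k} (hu : InK u ui)
    (hv : InK v vi) (ha : Monotone fun i => ‖a i‖) (he : M = u * diagonal a * v) (i : Fin n) :
    sv M i = ‖a i.rev‖ := by
  have h1 : M = u.submatrix id Fin.revPerm * diagonal (fun i => a i.rev) *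
      v.submatrix Fin.revPerm id := by
    have h2 : diagonal (fun i => a i.rev) =
        (diagonal a).submatrix (Fin.revPerm : Equiv.Perm (Fin n)) Fin.revPerm := by
      ext i j
      rw [Matrix.submatrix_apply, Matrix.diagonal_apply, Matrix.diagonal_apply]
      by_cases h : i = j
      · subst h; simp
      · have : (Fin.revPerm i : Fin n) ≠ Fin.revPerm j := fun h0 => h (Fin.revPerm.injective h0)
        rw [if_neg h, if_neg this]
    rw [h2, Matrix.submatrix_mul_equiv, Matrix.submatrix_mul_equiv, he]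
    rfl
  have h3 := sv_unique (ink_rows hu Fin.revPerm) (hv.perm_left Fin.revPerm)
    (a := fun i => a i.rev) (fun i j hij => ha (Fin.rev_le_rev.2 hij)) h1 i
  exact h3

theorem sv_inv (γ : (Matrix (Fin n) (Fin n) k)ˣ) (i : Fin n) :
    sv (γ⁻¹).1 i = (sv γ.1 i.rev)⁻¹ := by
  have hdet : γ.1.det ≠ 0 := (Matrix.isUnits_det_units γ).ne_zero
  have h1 : (γ⁻¹).1 = (car γ.1).vi * (diagonal fun i => ((car γ.1).a i)⁻¹) * (car γ.1).ui := by
    rw [← car_inv]
    calc (γ⁻¹).1 = 1 * (γ⁻¹).1 * 1 := by rw [Matrix.one_mul, Matrix.mul_one]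
      _ = ((car γ.1).vi * (car γ.1).v) * (γ⁻¹).1 * ((car γ.1).u * (car γ.1).ui) := by
          rw [(car γ.1).hv.mul', (car γ.1).hu.mul]
      _ = _ := by simp only [Matrix.mul_assoc]
  have h2 := sv_rev (car γ.1).hv.symm (car γ.1).hu.symm (a := fun i => ((car γ.1).a i)⁻¹)
    (fun i j hij => by
      simp only [norm_inv]
      exact inv_anti₀ (sv_pos hdet _) ((car γ.1).anti hij)) h1 i
  rw [h2, norm_inv]
  rfl

theorem sv_tr (M : Matrix (Fin n) (Fin n) k) (i : Fin n) : sv Mᵀ i = sv M i := by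
  refine sv_unique (ink_tr (car M).hv) (ink_tr (car M).hu) (car M).anti ?_ i
  conv_lhs => rw [(car M).eq]
  rw [Matrix.transpose_mul, Matrix.transpose_mul, Matrix.diagonal_transpose, Matrix.mul_assoc]

theorem la_inv (γ : (Matrix (Fin n) (Fin n) k)ˣ) {j : ℕ} (hj : j < n) :
    la (γ⁻¹).1 j = - la γ.1 (n - 1 - j) := by
  rw [la, dif_pos hj, la, dif_pos (by omega), sv_inv, Real.log_inv]
  congr 3
  ext
  rw [Fin.val_rev]
  simp only
  omega

theorem la_tr (M : Matrix (Fin n) (Fin n) k) (j : ℕ) : la Mᵀ j = la M j := by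
  unfold la
  split_ifs with h
  · rw [sv_tr]
  · rfl

end uniq

section three

variable {k : Type} [NormedField k] [IsUltrametricDist k]

theorem g1_inv (γ : (Matrix (Fin 3) (Fin 3) k)ˣ) : g1 (γ⁻¹).1 = g2 γ.1 := by
  rw [g1, g2, la_inv γ (by norm_num), la_inv γ (by norm_num)]
  norm_num
  ring

theorem g2_inv (γ : (Matrix (Fin 3) (Fin 3) k)ˣ) : g2 (γ⁻¹).1 = g1 γ.1 := by
  rw [g1, g2, la_inv γ (by norm_num), la_inv γ (by norm_num)]
  norm_num
  ring

theorem g1_tr {n : ℕ} (M : Matrix (Fin n) (Fin n) k) : g1 Mᵀ = g1 M := by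
  rw [g1, g1, la_tr, la_tr]

theorem g2_tr {n : ℕ} (M : Matrix (Fin n) (Fin n) k) : g2 Mᵀ = g2 M := by
  rw [g2, g2, la_tr, la_tr]

end three

section ctr

variable {k : Type} [NontriviallyNormedField k] [IsUltrametricDist k]

theorem sl_inv_val {n : ℕ} (g : SpecialLinearGroup (Fin n) k) :
    (g⁻¹).1 = ((Matrix.SpecialLinearGroup.toGL g)⁻¹).1 := by
  have : ((Matrix.SpecialLinearGroup.toGL g)⁻¹) = Matrix.SpecialLinearGroup.toGL g⁻¹ :=
    (map_inv _ g).symm
  rw [this]
  rfl

theorem g1_ct (g : RC.GG k 2) : g1 (RC.ct g).1 = g2 g.1 := by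
  show g1 (g⁻¹).1ᵀ = g2 g.1
  rw [g1_tr, sl_inv_val, g1_inv]
  rfl

theorem g2_ct (g : RC.GG k 2) : g2 (RC.ct g).1 = g1 g.1 := by
  show g2 (g⁻¹).1ᵀ = g1 g.1
  rw [g2_tr, sl_inv_val, g2_inv]
  rfl

theorem g1_inv' (g : RC.GG k 2) : g1 (g⁻¹).1 = g2 g.1 := by
  rw [sl_inv_val, g1_inv]
  rfl

theorem g2_inv' (g : RC.GG k 2) : g2 (g⁻¹).1 = g1 g.1 := by
  rw [sl_inv_val, g2_inv]
  rfl

theorem ct_inj {m : ℕ} : Function.Injective (RC.ct : RC.GG k m →* RC.GG k m) := by
  intro a b h
  have h1 : (a⁻¹).1ᵀ = (b⁻¹).1ᵀ := congrArg Subtype.val h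
  have h2 : a⁻¹ = b⁻¹ := Subtype.ext (Matrix.transpose_injective h1)
  exact inv_injective h2

theorem bd_ct {n : ℕ} {B : ℝ} {g : (Matrix (Fin n) (Fin n) k)ˣ} (hg : Bd B g) :
    ∃ h : (Matrix (Fin n) (Fin n) k)ˣ, Bd B h ∧ h.1 = (g⁻¹).1ᵀ :=
  ⟨⟨(g⁻¹).1ᵀ, g.1ᵀ, by rw [← Matrix.transpose_mul, Units.mul_inv, Matrix.transpose_one],
    by rw [← Matrix.transpose_mul, Units.inv_mul, Matrix.transpose_one]⟩,
    ⟨fun i j => hg.2 j i, fun i j => hg.1 j i⟩, rfl⟩

variable [ProperSpace k]

/-- **The dual geometric package**: the cones over the lines, `g1 ≤ g2`. -/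
theorem cl_geo_ct {Γ : Type} [Group Γ] [SMul Γ (ℙ k (Fin 3 → k))] (q : Γ →* RC.GG k 2)
    (hq : Function.Injective q) (hd : DiscreteTopology q.range)
    (hsm : ∀ (s : Γ) (y : ℙ k (Fin 3 → k)), s • y = RC.ct (q s) • y) :
    Geo (fun γ => g2 (q γ).1) (fun γ => g1 (q γ).1)
      (fun γ => bp (by omega) (tg (RC.ct.comp q) γ)) := by
  have h := cl_geo (k := k) (n := 3) (by norm_num) (tg (RC.ct.comp q))
    (fun s y => (hsm s y).trans (tg_smul (RC.ct.comp q) s y).symm) ?_
  · have e1 : (fun γ => g1 (tg (RC.ct.comp q) γ).1) = fun γ => g2 (q γ).1 :=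
      funext fun γ => g1_ct (q γ)
    have e2 : (fun γ => g2 (tg (RC.ct.comp q) γ).1) = fun γ => g1 (q γ).1 :=
      funext fun γ => g2_ct (q γ)
    rw [e1, e2] at h
    exact h
  · intro B
    refine (sl_fin (by norm_num) q hq hd B).subset ?_
    rintro γ ⟨z, g, hg, h⟩
    obtain ⟨g', hg', he⟩ := bd_ct hg
    refine ⟨z⁻¹, g', hg', ?_⟩
    have h1 : (Matrix.SpecialLinearGroup.toGL (RC.ct (q γ)) : GL (Fin 3) k).1 =
        (z : k) • g.1 := h
    have h2 := inv_of_smul h1
    have h3 : (Matrix.SpecialLinearGroup.toGL (RC.ct (q γ)) : GL (Fin 3) k)⁻¹.1 = (q γ).1ᵀ := by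
      rw [← sl_inv_val, ← map_inv]
      show ((q γ)⁻¹⁻¹).1ᵀ = _
      rw [inv_inv]
    rw [h3] at h2
    rw [he]
    have h4 := congrArg Matrix.transpose h2
    rw [Matrix.transpose_transpose, Matrix.transpose_smul] at h4
    exact h4

end ctr

end Vale.Agent.P092.H575
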